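import Vale.Agent.P369.H809.Prod

/-!
P369F (helper809): the entropy along a path of faithful states whose derivative is a
nonnegative combination of gain and loss generators of single modes.
-/

namespace Vale.Agent.P369F

open Matrix MeasureTheory Set Filter
open Vale.Agent.P369 (Conf up down)
open Vale.Agent.P369V (ent)
open Vale.Agent.P369A
open scoped ComplexOrder Topology

noncomputable section

variable {n : ℕ}

/-- the weight outside a cutoff is at most energy over cutoff -/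
theorem tr_tail {s : Ker n} {E : ℝ} (h : Reg s E) (X : ℕ) : 1 - trX s X ≤ E / (X + 1) := by
  have hX0 : (0 : ℝ) < (X : ℝ) + 1 := by positivity
  have hd : ∀ x : Conf n, 0 ≤ (s x x).re := diag_nonneg_of_cut fun X => (h.pos X).posSemidef
  have key : ∀ X' : ℕ, X ≤ X' → trX s X' - trX s X ≤ E / (X + 1) := by
    intro X' hX'
    rw [le_div_iff₀ hX0]
    have e1 : trX s X' = ∑ x ∈ ctF n X', (s x x).re :=
      (sum_ctF X' (fun x : Conf n => (s x x).re)).symm ▸ rfl
    have e2 : trX s X = ∑ x ∈ ctF n X, (s x x).re :=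
      (sum_ctF X (fun x : Conf n => (s x x).re)).symm ▸ rfl
    have e3 : enX s X' = ∑ x ∈ ctF n X', (∑ j, (x j : ℝ)) * (s x x).re :=
      (sum_ctF X' (fun x : Conf n => (∑ j, (x j : ℝ)) * (s x x).re)).symm ▸ rfl
    have hsub : ctF n X ⊆ ctF n X' := ctF_mono hX'
    have h1 : trX s X' - trX s X = ∑ x ∈ ctF n X' \ ctF n X, (s x x).re := by
      rw [e1, e2, ← Finset.sum_sdiff hsub]
      ring
    have h2 : (∑ x ∈ ctF n X' \ ctF n X, (s x x).re) * ((X : ℝ) + 1) ≤ enX s X' := by
      rw [e3, Finset.sum_mul]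
      calc ∑ x ∈ ctF n X' \ ctF n X, (s x x).re * ((X : ℝ) + 1)
          ≤ ∑ x ∈ ctF n X' \ ctF n X, (∑ j, (x j : ℝ)) * (s x x).re := by
            refine Finset.sum_le_sum fun x hx => ?_
            have h3 : ¬ ∑ j, x j ≤ X := fun h4 => (Finset.mem_sdiff.1 hx).2 (mem_ctF.2 h4)
            have h4 : (X : ℝ) + 1 ≤ ∑ j, (x j : ℝ) := by
              have : X + 1 ≤ ∑ j, x j := by omega
              exact_mod_cast this
            rw [mul_comm]
            exact mul_le_mul_of_nonneg_right h4 (hd x)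
        _ ≤ ∑ x ∈ ctF n X', (∑ j, (x j : ℝ)) * (s x x).re :=
            Finset.sum_le_sum_of_subset_of_nonneg Finset.sdiff_subset fun x _ _ =>
              mul_nonneg (Finset.sum_nonneg fun _ _ => Nat.cast_nonneg _) (hd x)
    rw [h1]
    exact h2.trans (h.en_le X')
  have h5 : Tendsto (fun X' => trX s X' - trX s X) atTop (𝓝 (1 - trX s X)) :=
    h.tr.sub_const _
  refine le_of_tendsto h5 ?_
  filter_upwards [eventually_ge_atTop X] with X' hX' using key X' hX'

theorem Reg_energy_nonneg {s : Ker n} {E : ℝ} (h : Reg s E) : 0 ≤ E := by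
  refine ge_of_tendsto' h.en fun X => ?_
  exact Finset.sum_nonneg fun x _ => mul_nonneg (Finset.sum_nonneg fun _ _ => Nat.cast_nonneg _)
    (diag_nonneg_of_cut (fun X => (h.pos X).posSemidef) x.1)

/-- a path of faithful states whose derivative is a nonnegative combination of one-mode gain and
loss generators -/
structure GPath (s : ℝ → Ker n) (α β : Fin n → ℝ → ℝ) (a b E : ℝ) : Prop where
  reg : ∀ t ∈ Icc a b, ∃ E', Reg (s t) E' ∧ E' ≤ E
  herm : ∀ t ∈ Icc a b, ∀ X, ∀ᶠ t' in 𝓝 t, (cut X (s t')).IsHermitian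
  der : ∀ t ∈ Icc a b, ∀ x y, HasDerivAt (fun t' => s t' x y)
    (∑ j, (((α j t : ℝ) : ℂ) * genAj (s t) j x y + ((β j t : ℝ) : ℂ) * genLj (s t) j x y)) t
  cα : ∀ j, ContinuousOn (α j) (Icc a b)
  cβ : ∀ j, ContinuousOn (β j) (Icc a b)
  α0 : ∀ j, ∀ t ∈ Icc a b, 0 ≤ α j t
  β0 : ∀ j, ∀ t ∈ Icc a b, 0 ≤ β j t

namespace GPath

variable {s : ℝ → Ker n} {α β : Fin n → ℝ → ℝ} {a b E : ℝ}

theorem pos (h : GPath s α β a b E) {t : ℝ} (ht : t ∈ Icc a b) (X : ℕ) :
    (cut X (s t)).PosDef := by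
  obtain ⟨E', h1, -⟩ := h.reg t ht
  exact h1.pos X

theorem tr_le (h : GPath s α β a b E) {t : ℝ} (ht : t ∈ Icc a b) (X : ℕ) : trX (s t) X ≤ 1 := by
  obtain ⟨E', h1, -⟩ := h.reg t ht
  exact h1.tr_le X

theorem en_le (h : GPath s α β a b E) {t : ℝ} (ht : t ∈ Icc a b) (X : ℕ) : enX (s t) X ≤ E := by
  obtain ⟨E', h1, h2⟩ := h.reg t ht
  exact (h1.en_le X).trans h2

theorem cont (h : GPath s α β a b E) (x y : Conf n) :
    ContinuousOn (fun t => s t x y) (Icc a b) := fun t ht =>
  (h.der t ht x y).continuousAt.continuousWithinAt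

theorem limit (h : GPath s α β a b E) {t : ℝ} (ht : t ∈ Icc a b) :
    Tendsto (fun X => ent (cut X (s t))) atTop (𝓝 (Sl (s t))) := by
  obtain ⟨E', h1, -⟩ := h.reg t ht
  exact h1.limit

theorem E_nonneg (h : GPath s α β a b E) (hab : a ≤ b) : 0 ≤ E := by
  obtain ⟨E', h1, h2⟩ := h.reg a ⟨le_rfl, hab⟩
  exact (Reg_energy_nonneg h1).trans h2

/-- the production at cutoff `X` -/
def prodX (s : ℝ → Ker n) (α β : Fin n → ℝ → ℝ) (X : ℕ) (t : ℝ) : ℝ :=
  ∑ j, (α j t * Ppj (s t) X j - β j t * Pmj (s t) (X + 1) j)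

/-- the boundary term at cutoff `X` -/
def bdX (s : ℝ → Ker n) (α β : Fin n → ℝ → ℝ) (X : ℕ) (t : ℝ) : ℝ :=
  ∑ j, (α j t * uBj (s t) X j - β j t * wBj (s t) (X + 1) j)

theorem deriv_ent (h : GPath s α β a b E) {t : ℝ} (ht : t ∈ Icc a b) (X : ℕ) :
    HasDerivAt (fun t => ent (cut (X + 1) (s t)))
      (1 * (prodX s α β X t + bdX s α β X t - bdX s α β (X + 1) t)) t := by
  set A' : Matrix (Ct n (X + 1)) (Ct n (X + 1)) ℂ :=
    ∑ j, (((α j t : ℝ) : ℂ) • genCj X (s t) j - ((β j t : ℝ) : ℂ) • genDj (X + 1) (s t) j) with hA'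
  have h1 : ∀ x y : Ct n (X + 1), HasDerivAt (fun t => cut (X + 1) (s t) x y) (A' x y) t := by
    intro x y
    refine (h.der t ht x.1 y.1).congr_deriv ?_
    rw [hA', Matrix.sum_apply]
    refine Finset.sum_congr rfl fun j _ => ?_
    rw [Matrix.sub_apply, Matrix.smul_apply, Matrix.smul_apply, smul_eq_mul, smul_eq_mul,
      ← genAj_eq, ← genLj_eq]
    ring
  have h2 := hasDerivAt_ent_herm h1 (h.pos ht (X + 1)) (h.herm t ht (X + 1))
  refine h2.congr_deriv ?_
  have e1 : (A' * cfc Real.log (cut (X + 1) (s t))).trace.re =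
      ∑ j, (α j t * (genCj X (s t) j * cfc Real.log (cut (X + 1) (s t))).trace.re -
        β j t * (genDj (X + 1) (s t) j * cfc Real.log (cut (X + 1) (s t))).trace.re) := by
    rw [hA', Finset.sum_mul, trace_sum, Complex.re_sum]
    refine Finset.sum_congr rfl fun j _ => ?_
    rw [Matrix.sub_mul, trace_sub, Complex.sub_re, Matrix.smul_mul, Matrix.smul_mul, trace_smul,
      trace_smul, smul_eq_mul, smul_eq_mul, Complex.re_ofReal_mul, Complex.re_ofReal_mul]
  have e2 : A'.trace.re = ∑ j, (α j t * (genCj X (s t) j).trace.re -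
      β j t * (genDj (X + 1) (s t) j).trace.re) := by
    rw [hA', trace_sum, Complex.re_sum]
    refine Finset.sum_congr rfl fun j _ => ?_
    rw [trace_sub, Complex.sub_re, trace_smul,
      trace_smul, smul_eq_mul, smul_eq_mul, Complex.re_ofReal_mul, Complex.re_ofReal_mul]
  rw [e1, e2, one_mul]
  unfold prodX bdX
  rw [← Finset.sum_neg_distrib, ← Finset.sum_sub_distrib, ← Finset.sum_add_distrib,
    ← Finset.sum_sub_distrib]
  refine Finset.sum_congr rfl fun j _ => ?_
  have h3 := prod_genCj (h.pos ht X) (h.pos ht (X + 1)) j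
  have h4 := prod_genDj (h.pos ht (X + 1)) (h.pos ht (X + 1 + 1)) j
  linear_combination (α j t) * h3 - (β j t) * h4

theorem cont_prodX (h : GPath s α β a b E) (X : ℕ) :
    ContinuousOn (prodX s α β X) (Icc a b) := by
  unfold prodX
  exact continuousOn_finsetSum _ fun j _ =>
    ((h.cα j).mul (continuousOn_Ppj (fun t ht => h.pos ht) h.cont X j)).sub
      ((h.cβ j).mul (continuousOn_Pmj (fun t ht => h.pos ht) h.cont (X + 1) j))

theorem cont_bdX (h : GPath s α β a b E) (X : ℕ) :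
    ContinuousOn (bdX s α β X) (Icc a b) := by
  unfold bdX
  exact continuousOn_finsetSum _ fun j _ =>
    ((h.cα j).mul (continuousOn_uBj (fun t ht => h.pos ht) h.cont X j)).sub
      ((h.cβ j).mul (continuousOn_wBj (fun t ht => h.pos ht) h.cont (X + 1) j))

theorem exists_bound (h : GPath s α β a b E) :
    ∃ W : ℝ, 0 ≤ W ∧ ∀ t ∈ Icc a b, ∑ j, (α j t + β j t) ≤ W := by
  have hc : ContinuousOn (fun t => ∑ j, (α j t + β j t)) (Icc a b) :=
    continuousOn_finsetSum _ fun j _ => (h.cα j).add (h.cβ j)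
  obtain ⟨W, hW⟩ := isCompact_Icc.exists_bound_of_continuousOn hc
  refine ⟨max W 0, le_max_right _ _, fun t ht => ?_⟩
  exact ((le_abs_self _).trans (hW t ht)).trans (le_max_left _ _)

theorem bd_small (h : GPath s α β a b E) (hab : a ≤ b) {ε : ℝ} (hε : 0 < ε) :
    ∀ᶠ X : ℕ in atTop, ∀ t ∈ Icc a b, |bdX s α β X t| ≤ ε * X := by
  obtain ⟨W, hW0, hW⟩ := h.exists_bound
  have hE0 := h.E_nonneg hab
  set δ : ℝ := ε / (2 * (W + 1)) with hδ
  have hδ0 : 0 < δ := by positivity
  have h1 := z_boundary (s := s) (a := a) (b := b) (E := E) hE0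
    (fun k hk => ⟨fun X => (h.pos hk X).posSemidef, h.tr_le hk, h.en_le hk⟩) hδ0
  have h2 := (tendsto_add_atTop_nat 1).eventually h1
  filter_upwards [h1, h2, eventually_ge_atTop 1] with X hX hX' hX1 t ht
  have hX1' : (1 : ℝ) ≤ X := by exact_mod_cast hX1
  have hu : ∀ Y, ∀ j, 0 ≤ uBj (s t) Y j ∧ uBj (s t) Y j ≤ uB (s t) Y := fun Y j =>
    ⟨(wBj_nonneg (h.pos ht Y).posSemidef (h.tr_le ht Y) j).trans
      (wBj_le_uBj (h.pos ht Y).posSemidef (h.tr_le ht Y) j),
      uBj_le_uB (h.pos ht Y).posSemidef (h.tr_le ht Y) j⟩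
  have hw : ∀ Y, ∀ j, 0 ≤ wBj (s t) Y j ∧ wBj (s t) Y j ≤ uB (s t) Y := fun Y j =>
    ⟨wBj_nonneg (h.pos ht Y).posSemidef (h.tr_le ht Y) j,
      (wBj_le_uBj (h.pos ht Y).posSemidef (h.tr_le ht Y) j).trans (hu Y j).2⟩
  have hb1 : uB (s t) X ≤ δ * (2 * X) := by
    have := hX t ht
    nlinarith
  have hb2 : uB (s t) (X + 1) ≤ δ * (2 * X) := by
    have h3 := hX' t ht
    have h4 : ((X + 1 : ℕ) : ℝ) ≤ 2 * X := by push_cast; linarith
    exact h3.trans (mul_le_mul_of_nonneg_left h4 hδ0.le)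
  have h5 : |bdX s α β X t| ≤ ∑ j, (α j t + β j t) * (δ * (2 * X)) := by
    unfold bdX
    refine (Finset.abs_sum_le_sum_abs _ _).trans (Finset.sum_le_sum fun j _ => ?_)
    have hα := h.α0 j t ht
    have hβ := h.β0 j t ht
    obtain ⟨u1, u2⟩ := hu X j
    obtain ⟨w1, w2⟩ := hw (X + 1) j
    have p1 : 0 ≤ α j t * uBj (s t) X j := mul_nonneg hα u1
    have p2 : 0 ≤ β j t * wBj (s t) (X + 1) j := mul_nonneg hβ w1
    have p3 : α j t * uBj (s t) X j ≤ α j t * (δ * (2 * X)) :=
      mul_le_mul_of_nonneg_left (u2.trans hb1) hα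
    have p4 : β j t * wBj (s t) (X + 1) j ≤ β j t * (δ * (2 * X)) :=
      mul_le_mul_of_nonneg_left (w2.trans hb2) hβ
    rw [abs_le]
    constructor <;> nlinarith
  refine h5.trans ?_
  rw [← Finset.sum_mul]
  have h6 : 0 ≤ δ * (2 * (X : ℝ)) := by positivity
  refine (mul_le_mul_of_nonneg_right (hW t ht) h6).trans ?_
  have h7 : W * (δ * (2 * (X : ℝ))) = (W / (W + 1)) * (ε * X) := by
    rw [hδ]
    field_simp
  rw [h7]
  have h8 : W / (W + 1) ≤ 1 := by
    rw [div_le_one (by positivity)]; linarith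
  have h9 : 0 ≤ ε * (X : ℝ) := by positivity
  nlinarith

/-- averaged form of the fundamental theorem of calculus -/
theorem avg (h : GPath s α β a b E) (hab : a ≤ b) {ε : ℝ} (hε : 0 < ε) :
    ∀ᶠ L : ℕ in atTop, |(∑ i ∈ Finset.Ico L (2 * L), ∫ t in a..b, prodX s α β i t) -
      L * (Sl (s b) - Sl (s a))| ≤ ε * L := by
  have hI : uIcc a b = Icc a b := uIcc_of_le hab
  set D := Sl (s b) - Sl (s a) with hD
  have hz : Tendsto (fun X => ent (cut (X + 1) (s b)) - ent (cut (X + 1) (s a))) atTop (𝓝 D) :=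
    ((tendsto_add_atTop_iff_nat 1).2 (h.limit ⟨hab, le_rfl⟩)).sub
      ((tendsto_add_atTop_iff_nat 1).2 (h.limit ⟨le_rfl, hab⟩))
  have htel := flow_tel (y := fun X t => ent (cut (X + 1) (s t))) (P := prodX s α β)
    (u := bdX s α β) (w := fun _ => 1) hab continuousOn_const
    (fun X k hk => h.deriv_ent hk X) h.cont_prodX h.cont_bdX
  set W : ℝ := b - a with hW
  have hW0 : 0 ≤ W := by linarith
  set δ : ℝ := ε / (4 * (W + 1)) with hδ
  have hδ0 : 0 < δ := by positivity
  have hbd := h.bd_small hab hδ0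
  have h2t : Tendsto (fun X : ℕ => 2 * X) atTop atTop :=
    tendsto_id.const_mul_atTop' (by norm_num)
  filter_upwards [avg_le hz (show 0 < ε / 4 by positivity), hbd, h2t.eventually hbd] with
    L h1 h2 h3
  have ht := htel L
  simp only [one_mul] at ht
  have i1 : ∀ X : ℕ, (∀ t ∈ Icc a b, |bdX s α β X t| ≤ δ * X) →
      |∫ t in a..b, bdX s α β X t| ≤ δ * X * W := by
    intro X hX
    have h4 := intervalIntegral.norm_integral_le_of_norm_le_const (a := a) (b := b)
      (f := bdX s α β X) (C := δ * X) (fun t ht => by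
        rw [uIoc_of_le hab] at ht
        exact hX t (Ioc_subset_Icc_self ht))
    rw [Real.norm_eq_abs, abs_of_nonneg hW0] at h4
    exact h4
  have j1 := i1 L h2
  have j2 := i1 (2 * L) h3
  push_cast at j2
  have hL0 : (0 : ℝ) ≤ L := Nat.cast_nonneg L
  have k1 : δ * L * W ≤ ε / 4 * L := by
    have e1 : δ * L * W = (W / (W + 1)) * (ε / 4 * L) := by
      rw [hδ]
      field_simp
    rw [e1]
    have e2 : W / (W + 1) ≤ 1 := by
      rw [div_le_one (by positivity)]; linarith
    have e3 : 0 ≤ ε / 4 * (L : ℝ) := by positivity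
    nlinarith
  have h1' : |(∑ i ∈ Finset.Ico L (2 * L), (ent (cut (i + 1) (s b)) - ent (cut (i + 1) (s a)))) -
      L * D| ≤ ε / 4 * L := h1
  rw [ht] at h1'
  rw [abs_le] at h1' j1 j2 ⊢
  constructor
  · linarith [h1'.1, h1'.2, j1.1, j1.2, j2.1, j2.2]
  · linarith [h1'.1, h1'.2, j1.1, j1.2, j2.1, j2.2]

/-- the truncated rate of entropy -/
def rateX (s : ℝ → Ker n) (α β : Fin n → ℝ → ℝ) (X : ℕ) (t : ℝ) : ℝ :=
  ∑ j, (α j t * Ppj (s t) X j +
    β j t * ((∫ m in (0 : ℝ)..1, m * FXj m (s t) X j) - 1))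

theorem cont_rateX (h : GPath s α β a b E) (X : ℕ) :
    ContinuousOn (rateX s α β X) (Icc a b) := by
  unfold rateX
  exact continuousOn_finsetSum _ fun j _ =>
    ((h.cα j).mul (continuousOn_Ppj (fun t ht => h.pos ht) h.cont X j)).add
      ((h.cβ j).mul ((continuousOn_int_w (fun t ht => h.pos ht) h.cont
        (w := fun m => m) (by fun_prop) X j).sub continuousOn_const))

theorem Ppj_mono {s : Ker n} (hs : ∀ X, (cut X s).PosDef) (j : Fin n) :
    Monotone fun X => Ppj s X j := by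
  intro X X' hX
  refine add_le_add (trX_mono (fun X => (hs X).posSemidef) (by omega)) ?_
  exact int_mono_w hs (w := fun m => 1 - m) (by fun_prop) (fun m hm => by linarith [hm.2]) j hX

/-- lower bound: truncated rates are at most the increment of the entropy -/
theorem flow_low (h : GPath s α β a b E) (hab : a ≤ b) (X : ℕ) :
    ∫ t in a..b, rateX s α β X t ≤ Sl (s b) - Sl (s a) := by
  have hI : uIcc a b = Icc a b := uIcc_of_le hab
  refine le_of_forall_pos_le_add fun ε hε => ?_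
  obtain ⟨L, h1, hL⟩ := ((h.avg hab hε).and (eventually_ge_atTop (max X 1))).exists
  have hLX : X ≤ L := (le_max_left _ _).trans hL
  have hL1 : 1 ≤ L := (le_max_right _ _).trans hL
  have hL0 : (0 : ℝ) < L := by exact_mod_cast hL1
  have hcard : ∑ _i ∈ Finset.Ico L (2 * L), (∫ t in a..b, rateX s α β X t) =
      L * ∫ t in a..b, rateX s α β X t := by
    rw [Finset.sum_const, Nat.card_Ico, nsmul_eq_mul]
    have : 2 * L - L = L := by omega
    rw [this]
  have h3 : (L : ℝ) * (∫ t in a..b, rateX s α β X t) ≤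
      ∑ i ∈ Finset.Ico L (2 * L), ∫ t in a..b, prodX s α β i t := by
    rw [← hcard]
    refine Finset.sum_le_sum fun i hi => ?_
    have hi' := Finset.mem_Ico.1 hi
    refine intervalIntegral.integral_mono_on hab
      (ContinuousOn.intervalIntegrable (by rw [hI]; exact h.cont_rateX X))
      (ContinuousOn.intervalIntegrable (by rw [hI]; exact h.cont_prodX i)) fun t ht => ?_
    refine Finset.sum_le_sum fun j _ => ?_
    have q1 := Ppj_mono (fun X => h.pos ht X) j (hLX.trans hi'.1)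
    have q2 := int_mono_w (fun X => h.pos ht X) (w := fun m => m) (by fun_prop)
      (fun m hm => hm.1) j (show X ≤ i + 1 by omega)
    have q3 := h.tr_le ht (i + 1)
    have q4 : (∫ m in (0 : ℝ)..1, m * FXj m (s t) X j) - 1 ≤ -Pmj (s t) (i + 1) j := by
      unfold Pmj
      have q2' : (∫ m in (0 : ℝ)..1, m * FXj m (s t) X j) ≤
        ∫ m in (0 : ℝ)..1, m * FXj m (s t) (i + 1) j := q2
      linarith
    have q5 := mul_le_mul_of_nonneg_left q4 (h.β0 j t ht)
    have q6 := mul_le_mul_of_nonneg_left q1 (h.α0 j t ht)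
    have q6' : α j t * Ppj (s t) X j ≤ α j t * Ppj (s t) i j := q6
    linarith
  have h4 := (abs_le.1 h1).2
  have h5 : (L : ℝ) * (∫ t in a..b, rateX s α β X t) ≤ L * (Sl (s b) - Sl (s a) + ε) := by
    linarith
  exact le_of_mul_le_mul_left h5 hL0

/-- upper bound: the increment of the entropy is at most the truncated rates, eventually -/
theorem flow_up (h : GPath s α β a b E) (hab : a ≤ b) {ε : ℝ} (hε : 0 < ε) :
    ∀ᶠ X in atTop, Sl (s b) - Sl (s a) - ε ≤ ∫ t in a..b, rateX s α β X t := by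
  have hI : uIcc a b = Icc a b := uIcc_of_le hab
  obtain ⟨W, hW0, hW⟩ := h.exists_bound
  have hE0 := h.E_nonneg hab
  have hl1 : Tendsto (fun L : ℕ => W * (E / ((L : ℝ) + 1)) * (b - a)) atTop (𝓝 0) := by
    have h1 := (tendsto_one_div_add_atTop_nhds_zero_nat (𝕜 := ℝ)).const_mul (W * E * (b - a))
    rw [mul_zero] at h1
    refine h1.congr fun L => ?_
    ring
  obtain ⟨L, ⟨h1, h1'⟩, hL1⟩ := (((h.avg hab (half_pos hε)).and
    (hl1.eventually (eventually_lt_nhds (half_pos hε)))).and (eventually_ge_atTop 1)).exists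
  filter_upwards [eventually_ge_atTop (2 * L)] with X hX
  have hL0 : (0 : ℝ) < L := by exact_mod_cast hL1
  have hcr : IntervalIntegrable (rateX s α β X) volume a b :=
    ContinuousOn.intervalIntegrable (by rw [hI]; exact h.cont_rateX X)
  have hcard : ∑ _i ∈ Finset.Ico L (2 * L), ((∫ t in a..b, rateX s α β X t) +
      W * (E / ((L : ℝ) + 1)) * (b - a)) =
      L * ((∫ t in a..b, rateX s α β X t) + W * (E / ((L : ℝ) + 1)) * (b - a)) := by
    rw [Finset.sum_const, Nat.card_Ico, nsmul_eq_mul]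
    have : 2 * L - L = L := by omega
    rw [this]
  have h3 : ∑ i ∈ Finset.Ico L (2 * L), (∫ t in a..b, prodX s α β i t) ≤
      L * ((∫ t in a..b, rateX s α β X t) + W * (E / ((L : ℝ) + 1)) * (b - a)) := by
    rw [← hcard]
    refine Finset.sum_le_sum fun i hi => ?_
    have hi' := Finset.mem_Ico.1 hi
    have e1 : (∫ t in a..b, rateX s α β X t) + W * (E / ((L : ℝ) + 1)) * (b - a) =
        ∫ t in a..b, (rateX s α β X t + W * (E / ((L : ℝ) + 1))) := by
      rw [intervalIntegral.integral_add hcr intervalIntegrable_const,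
        intervalIntegral.integral_const, smul_eq_mul]
      ring
    rw [e1]
    refine intervalIntegral.integral_mono_on hab
      (ContinuousOn.intervalIntegrable (by rw [hI]; exact h.cont_prodX i))
      (hcr.add intervalIntegrable_const) fun t ht => ?_
    have q0 : E / ((i + 1 : ℕ) + 1 : ℝ) ≤ E / ((L : ℝ) + 1) := by
      refine div_le_div_of_nonneg_left hE0 (by positivity) ?_
      push_cast
      have : (L : ℝ) ≤ i := by exact_mod_cast hi'.1
      linarith
    have q1 : 1 - trX (s t) (i + 1) ≤ E / ((L : ℝ) + 1) := by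
      obtain ⟨E', r1, r2⟩ := h.reg t ht
      have r3 := tr_tail r1 (i + 1)
      have r4 : E' / (((i + 1 : ℕ) : ℝ) + 1) ≤ E / (((i + 1 : ℕ) : ℝ) + 1) :=
        div_le_div_of_nonneg_right r2 (by positivity)
      exact (r3.trans r4).trans q0
    have q2 : prodX s α β i t ≤ rateX s α β X t +
        (∑ j, β j t) * (E / ((L : ℝ) + 1)) := by
      unfold prodX rateX
      rw [Finset.sum_mul, ← Finset.sum_add_distrib]
      refine Finset.sum_le_sum fun j _ => ?_
      have p1 : Ppj (s t) i j ≤ Ppj (s t) X j :=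
        Ppj_mono (fun X => h.pos ht X) j (by omega)
      have p2 : (∫ m in (0 : ℝ)..1, m * FXj m (s t) (i + 1) j) ≤
          ∫ m in (0 : ℝ)..1, m * FXj m (s t) X j :=
        int_mono_w (fun X => h.pos ht X) (w := fun m => m) (by fun_prop)
          (fun m hm => hm.1) j (show i + 1 ≤ X by omega)
      have p3 : -Pmj (s t) (i + 1) j ≤
          ((∫ m in (0 : ℝ)..1, m * FXj m (s t) X j) - 1) + E / ((L : ℝ) + 1) := by
        unfold Pmj
        linarith
      have p4 := mul_le_mul_of_nonneg_left p3 (h.β0 j t ht)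
      have p5 := mul_le_mul_of_nonneg_left p1 (h.α0 j t ht)
      linarith
    refine q2.trans (add_le_add le_rfl (mul_le_mul_of_nonneg_right ?_ (by positivity)))
    refine le_trans (Finset.sum_le_sum fun j _ => ?_) (hW t ht)
    linarith [h.α0 j t ht]
  have h4 := (abs_le.1 h1).1
  have h5 : (L : ℝ) * (Sl (s b) - Sl (s a) - ε / 2) ≤
      L * ((∫ t in a..b, rateX s α β X t) + W * (E / ((L : ℝ) + 1)) * (b - a)) := by
    linarith
  have h6 := le_of_mul_le_mul_left h5 hL0
  linarith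

end GPath

end

end Vale.Agent.P369F
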