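import Vale.Agent.P369.Bd3.B2

/-!
P369F (helper809): per-mode functionals and generators for infinite matrices.
-/

namespace Vale.Agent.P369F

open Matrix MeasureTheory Set
open Vale.Agent.P369 (Conf up down)
open Vale.Agent.P369V (ent)
open Vale.Agent.P369A
open scoped ComplexOrder

noncomputable section

variable {n : ℕ}

/-- the commutator `a_j s - s a_j` between at most `X+1` and at most `X` photons -/
def Zc (s : Ker n) (X : ℕ) (j : Fin n) : Matrix (Ct n X) (Ct n (X + 1)) ℂ :=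
  annR X j * cut (X + 1) s - cut X s * annR X j

/-- Fisher information of mode `j` at cutoff `X` -/
def FXj (m : ℝ) (s : Ker n) (X : ℕ) (j : Fin n) : ℝ :=
  Qf m (cut X s) (cut (X + 1) s) (annR X j * cut (X + 1) s - cut X s * annR X j)

/-- `I_ν(s; r)` of mode `j` at cutoff `X` -/
def IXj (m r : ℝ) (s : Ker n) (X : ℕ) (j : Fin n) : ℝ :=
  Qf m (cut X s) (cut (X + 1) s) (Zr r s X j)

/-- energy of mode `j` at cutoff `X` -/
def enXj (s : Ker n) (X : ℕ) (j : Fin n) : ℝ := ∑ x : Ct n X, (x.1 j : ℝ) * (s x.1 x.1).re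

/-- entropy production of the amplifier of mode `j` at cutoff `X` -/
def Ppj (s : Ker n) (X : ℕ) (j : Fin n) : ℝ :=
  trX s (X + 1) + ∫ m in (0 : ℝ)..1, (1 - m) * FXj m s X j

/-- entropy production of the (backward) loss of mode `j` at cutoff `X` -/
def Pmj (s : Ker n) (X : ℕ) (j : Fin n) : ℝ :=
  trX s X - ∫ m in (0 : ℝ)..1, m * FXj m s X j

/-- boundary term `Tr (N_j+1) η(s^X)` -/
def uBj (s : Ker n) (X : ℕ) (j : Fin n) : ℝ :=
  ∑ x : Ct n X, ((x.1 j : ℝ) + 1) * ((cfc Real.negMulLog (cut X s)) x x).re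

/-- boundary term `Tr N_j η(s^X)` -/
def wBj (s : Ker n) (X : ℕ) (j : Fin n) : ℝ :=
  ∑ x : Ct n X, (x.1 j : ℝ) * ((cfc Real.negMulLog (cut X s)) x x).re

/-- gain generator of mode `j`: `a_j† s a_j - (N_j+1) s` (symmetrised) -/
def genAj (s : Ker n) (j : Fin n) : Ker n := fun x y =>
  ((Real.sqrt (x j) * Real.sqrt (y j) : ℝ) : ℂ) * s (down x j) (down y j) -
    ((((x j : ℝ) + (y j : ℝ)) / 2 + 1 : ℝ) : ℂ) * s x y

/-- loss generator of mode `j`: `a_j s a_j† - N_j s` (symmetrised) -/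
def genLj (s : Ker n) (j : Fin n) : Ker n := fun x y =>
  ((Real.sqrt (x j + 1) * Real.sqrt (y j + 1) : ℝ) : ℂ) * s (up x j) (up y j) -
    ((((x j : ℝ) + (y j : ℝ)) / 2 : ℝ) : ℂ) * s x y

theorem FX_eq_sum (m : ℝ) (s : Ker n) (X : ℕ) : FX m s X = ∑ j, FXj m s X j := rfl

theorem IX_eq_sum (m r : ℝ) (s : Ker n) (X : ℕ) : IX m r s X = ∑ j, IXj m r s X j := rfl

theorem enX_eq_sum (s : Ker n) (X : ℕ) : enX s X = ∑ j, enXj s X j := by
  unfold enX enXj
  rw [Finset.sum_comm]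
  exact Finset.sum_congr rfl fun x _ => Finset.sum_mul _ _ _

theorem genA_eq_sum (s : Ker n) (x y : Conf n) : genA s x y = ∑ j, genAj s j x y := by
  unfold genA genAj
  rw [Finset.sum_sub_distrib, ← Finset.sum_mul]
  congr 2
  rw [← Complex.ofReal_sum]
  congr 1
  rw [Finset.sum_add_distrib, ← Finset.sum_div, Finset.sum_add_distrib]
  simp

theorem genL_eq_sum (s : Ker n) (x y : Conf n) : genL s x y = ∑ j, genLj s j x y := by
  unfold genL genLj
  rw [Finset.sum_sub_distrib, ← Finset.sum_mul]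
  congr 2
  rw [← Complex.ofReal_sum]
  congr 1
  rw [← Finset.sum_div, Finset.sum_add_distrib]

end

end Vale.Agent.P369F
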