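import Vale.Agent.P369.H809.Defs

/-!
P369F (helper809): per-mode entropy production formulas.
-/

namespace Vale.Agent.P369F

open Matrix MeasureTheory Set Filter
open Vale.Agent.P369 (Conf up down)
open Vale.Agent.P369V (ent)
open Vale.Agent.P369A
open scoped ComplexOrder Topology

noncomputable section

variable {n : ℕ}

/-- `diag (x_j + 1)` -/
def NNj (n X : ℕ) (j : Fin n) : Matrix (Ct n X) (Ct n X) ℂ :=
  diagonal fun x => (((x.1 j : ℝ) + 1 : ℝ) : ℂ)

/-- `diag x_j` -/
def Ndj (n X : ℕ) (j : Fin n) : Matrix (Ct n X) (Ct n X) ℂ :=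
  diagonal fun x => (((x.1 j : ℝ)) : ℂ)

theorem annR_mul_conj_self' (X : ℕ) (j : Fin n) : annR X j * (annR X j)ᴴ = NNj n X j := by
  rw [annR_mul_self_conj]
  unfold NNj
  congr 1
  funext x
  push_cast
  rfl

theorem conj_mul_annR_self' (X : ℕ) (j : Fin n) : (annR X j)ᴴ * annR X j = Ndj n (X + 1) j := by
  rw [conj_mul_annR_self]
  unfold Ndj
  congr 1

/-- the gain generator of mode `j`, compressed -/
def genCj (X : ℕ) (s : Ker n) (j : Fin n) : Matrix (Ct n (X + 1)) (Ct n (X + 1)) ℂ :=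
  (annR X j)ᴴ * cut X s * annR X j -
    (1 / 2 : ℂ) • (NNj n (X + 1) j * cut (X + 1) s + cut (X + 1) s * NNj n (X + 1) j)

/-- minus the loss generator of mode `j`, compressed -/
def genDj (X : ℕ) (s : Ker n) (j : Fin n) : Matrix (Ct n X) (Ct n X) ℂ :=
  (1 / 2 : ℂ) • (Ndj n X j * cut X s + cut X s * Ndj n X j) -
    annR X j * cut (X + 1) s * (annR X j)ᴴ

theorem genAj_eq (s : Ker n) (X : ℕ) (j : Fin n) (x y : Ct n (X + 1)) :
    genAj s j x.1 y.1 = genCj X s j x y := by
  unfold genAj genCj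
  rw [Matrix.sub_apply, Matrix.smul_apply, Matrix.add_apply, smul_eq_mul]
  unfold NNj
  rw [Matrix.diagonal_mul, Matrix.mul_diagonal]
  congr 1
  · rw [conj_annR_mul]
    by_cases h : 1 ≤ x.1 j ∧ 1 ≤ y.1 j
    · rw [if_pos h]
    · rw [if_neg h]
      have h1 : x.1 j = 0 ∨ y.1 j = 0 := by omega
      rcases h1 with h1 | h1
      · rw [h1]; simp only [CharP.cast_eq_zero, Real.sqrt_zero, zero_mul, Complex.ofReal_zero]
      · rw [h1]; simp only [CharP.cast_eq_zero, Real.sqrt_zero, mul_zero, Complex.ofReal_zero, zero_mul]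
  · show _ = 1 / 2 * ((((x.1 j : ℝ) + 1 : ℝ) : ℂ) * s x.1 y.1 +
      s x.1 y.1 * (((y.1 j : ℝ) + 1 : ℝ) : ℂ))
    push_cast
    ring

theorem genLj_eq (s : Ker n) (X : ℕ) (j : Fin n) (x y : Ct n X) :
    -genLj s j x.1 y.1 = genDj X s j x y := by
  unfold genLj genDj
  rw [Matrix.sub_apply, Matrix.smul_apply, Matrix.add_apply, smul_eq_mul]
  unfold Ndj
  rw [Matrix.diagonal_mul, Matrix.mul_diagonal, neg_sub]
  congr 1
  · show _ = 1 / 2 * (((x.1 j : ℝ) : ℂ) * s x.1 y.1 + s x.1 y.1 * ((y.1 j : ℝ) : ℂ))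
    push_cast
    ring
  · exact (annR_mul_conj j s x y).symm

theorem uBj_eq (s : Ker n) (X : ℕ) (j : Fin n) :
    uBj s X j = (NNj n X j * cfc Real.negMulLog (cut X s)).trace.re := by
  unfold NNj
  rw [re_trace_diag_mul]
  rfl

theorem wBj_eq (s : Ker n) (X : ℕ) (j : Fin n) :
    wBj s X j = (Ndj n X j * cfc Real.negMulLog (cut X s)).trace.re := by
  unfold Ndj
  rw [re_trace_diag_mul]
  rfl

theorem NNj_sub_Ndj (s : Ker n) (X : ℕ) (j : Fin n) :
    (NNj n X j * cut X s).trace.re - (Ndj n X j * cut X s).trace.re = trX s X := by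
  unfold NNj Ndj
  rw [re_trace_diag_mul, re_trace_diag_mul, ← Finset.sum_sub_distrib]
  unfold trX
  refine Finset.sum_congr rfl fun x _ => ?_
  show ((x.1 j : ℝ) + 1) * (s x.1 x.1).re - (x.1 j : ℝ) * (s x.1 x.1).re = _
  ring

/-- the entropy production of the gain generator of mode `j` -/
theorem prod_genCj {s : Ker n} {X : ℕ} (h0 : (cut X s).PosDef) (h1 : (cut (X + 1) s).PosDef)
    (j : Fin n) :
    -(genCj X s j * cfc Real.log (cut (X + 1) s)).trace.re - (genCj X s j).trace.re =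
      Ppj s X j + uBj s X j - uBj s (X + 1) j := by
  set σ := cut X s with hσ
  set A := cut (X + 1) s with hA
  set L := cfc Real.log A with hL
  obtain ⟨hAL, hLA⟩ := mul_log_cfc h1
  rw [← hL] at hAL hLA
  have hI : ∫ m in (0 : ℝ)..1, (1 - m) * FXj m s X j =
      -(NNj n X j * cfc Real.negMulLog σ).trace.re -
        (σ * annR X j * L * (annR X j)ᴴ).trace.re -
        (NNj n X j * σ).trace.re + (Ndj n (X + 1) j * A).trace.re := by
    have e0 := (int_Qf h0 h1 (annR X j)).2.1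
    have e2 : (cfc Real.negMulLog σ * (annR X j * (annR X j)ᴴ)).trace.re =
        (NNj n X j * cfc Real.negMulLog σ).trace.re := by
      rw [annR_mul_conj_self', trace_mul_comm]
    have e3 : (σ * (annR X j * (annR X j)ᴴ)).trace.re = (NNj n X j * σ).trace.re := by
      rw [annR_mul_conj_self', trace_mul_comm]
    have e4 : (A * ((annR X j)ᴴ * annR X j)).trace.re = (Ndj n (X + 1) j * A).trace.re := by
      rw [conj_mul_annR_self', trace_mul_comm]
    rw [← e2, ← e3, ← e4]
    exact e0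
  have t1 : (genCj X s j * L).trace.re = (σ * annR X j * L * (annR X j)ᴴ).trace.re +
      (NNj n (X + 1) j * cfc Real.negMulLog A).trace.re := by
    unfold genCj
    rw [Matrix.sub_mul, trace_sub, Complex.sub_re, Matrix.smul_mul, re_trace_smul_half,
      Matrix.add_mul, trace_add, Complex.add_re,
      Matrix.mul_assoc (NNj n (X + 1) j) _ L]
    have e1 : (cut (X + 1) s * NNj n (X + 1) j * L).trace = (NNj n (X + 1) j * (L * A)).trace := by
      rw [Matrix.mul_assoc, trace_mul_comm, Matrix.mul_assoc]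
    rw [e1, ← hA, hAL, hLA, Matrix.mul_neg, trace_neg, Complex.neg_re]
    have e2 : ((annR X j)ᴴ * cut X s * annR X j * L).trace =
        (σ * annR X j * L * (annR X j)ᴴ).trace := by
      rw [Matrix.mul_assoc, Matrix.mul_assoc, trace_mul_comm]
      simp only [Matrix.mul_assoc]
      rfl
    rw [congrArg Complex.re e2]
    ring
  have t2 : (genCj X s j).trace.re = (NNj n X j * σ).trace.re - (NNj n (X + 1) j * A).trace.re := by
    unfold genCj
    rw [trace_sub, Complex.sub_re, re_trace_smul_half, trace_add, Complex.add_re]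
    have e1 : (cut (X + 1) s * NNj n (X + 1) j).trace = (NNj n (X + 1) j * A).trace :=
      trace_mul_comm _ _
    have e2 : ((annR X j)ᴴ * cut X s * annR X j).trace = (NNj n X j * σ).trace := by
      rw [trace_mul_comm, ← Matrix.mul_assoc, annR_mul_conj_self']
    rw [e1, congrArg Complex.re e2, ← hA]
    ring
  have t3 := NNj_sub_Ndj s (X + 1) j
  unfold Ppj
  rw [t1, t2, hI, uBj_eq, uBj_eq]
  rw [← hA] at t3
  linarith only [t3]

/-- the entropy production of the loss generator of mode `j` -/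
theorem prod_genDj {s : Ker n} {X : ℕ} (h0 : (cut X s).PosDef) (h1 : (cut (X + 1) s).PosDef)
    (j : Fin n) :
    -(genDj X s j * cfc Real.log (cut X s)).trace.re - (genDj X s j).trace.re =
      Pmj s X j + wBj s X j - wBj s (X + 1) j := by
  set σ := cut X s with hσ
  set A := cut (X + 1) s with hA
  set L := cfc Real.log σ with hL
  obtain ⟨hAL, hLA⟩ := mul_log_cfc h0
  rw [← hL] at hAL hLA
  have hI : ∫ m in (0 : ℝ)..1, m * FXj m s X j =
      (NNj n X j * σ).trace.re - (Ndj n (X + 1) j * A).trace.re -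
        (L * annR X j * A * (annR X j)ᴴ).trace.re -
        (Ndj n (X + 1) j * cfc Real.negMulLog A).trace.re := by
    have e0 := (int_Qf h0 h1 (annR X j)).2.2
    have e2 : (cfc Real.negMulLog A * ((annR X j)ᴴ * annR X j)).trace.re =
        (Ndj n (X + 1) j * cfc Real.negMulLog A).trace.re := by
      rw [conj_mul_annR_self', trace_mul_comm]
    have e3 : (σ * (annR X j * (annR X j)ᴴ)).trace.re = (NNj n X j * σ).trace.re := by
      rw [annR_mul_conj_self', trace_mul_comm]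
    have e4 : (A * ((annR X j)ᴴ * annR X j)).trace.re = (Ndj n (X + 1) j * A).trace.re := by
      rw [conj_mul_annR_self', trace_mul_comm]
    rw [← e2, ← e3, ← e4]
    exact e0
  have t1 : (genDj X s j * L).trace.re = -(Ndj n X j * cfc Real.negMulLog σ).trace.re -
      (L * annR X j * A * (annR X j)ᴴ).trace.re := by
    unfold genDj
    rw [Matrix.sub_mul, trace_sub, Complex.sub_re, Matrix.smul_mul, re_trace_smul_half,
      Matrix.add_mul, trace_add, Complex.add_re,
      Matrix.mul_assoc (Ndj n X j) _ L]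
    have e1 : (cut X s * Ndj n X j * L).trace = (Ndj n X j * (L * σ)).trace := by
      rw [Matrix.mul_assoc, trace_mul_comm, Matrix.mul_assoc]
    rw [e1, ← hσ, hAL, hLA, Matrix.mul_neg, trace_neg, Complex.neg_re]
    have e2 : (annR X j * cut (X + 1) s * (annR X j)ᴴ * L).trace =
        (L * annR X j * A * (annR X j)ᴴ).trace := by
      rw [trace_mul_comm]
      simp only [Matrix.mul_assoc]
      rfl
    rw [congrArg Complex.re e2]
    ring
  have t2 : (genDj X s j).trace.re = (Ndj n X j * σ).trace.re - (Ndj n (X + 1) j * A).trace.re := by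
    unfold genDj
    rw [trace_sub, Complex.sub_re, re_trace_smul_half, trace_add, Complex.add_re]
    have e1 : (cut X s * Ndj n X j).trace = (Ndj n X j * σ).trace := trace_mul_comm _ _
    have e2 : (annR X j * cut (X + 1) s * (annR X j)ᴴ).trace = (Ndj n (X + 1) j * A).trace := by
      rw [trace_mul_comm, ← Matrix.mul_assoc, conj_mul_annR_self']
    rw [e1, congrArg Complex.re e2, ← hσ]
    ring
  have t3 := NNj_sub_Ndj s X j
  unfold Pmj
  rw [t1, t2, hI, wBj_eq, wBj_eq]
  rw [← hσ] at t3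
  linarith only [t3]

/-! ### monotonicity, nonnegativity, continuity -/

theorem FXj_nonneg {s : Ker n} (hs : ∀ X, (cut X s).PosDef) {m : ℝ} (hm : m ∈ Icc (0 : ℝ) 1)
    (X : ℕ) (j : Fin n) : 0 ≤ FXj m s X j := Qf_nonneg hm (hs X) (hs (X + 1)) _

theorem IXj_nonneg {s : Ker n} (hs : ∀ X, (cut X s).PosDef) {m : ℝ} (hm : m ∈ Icc (0 : ℝ) 1)
    (r : ℝ) (X : ℕ) (j : Fin n) : 0 ≤ IXj m r s X j := Qf_nonneg hm (hs X) (hs (X + 1)) _

theorem FXj_mono {s : Ker n} (hs : ∀ X, (cut X s).PosDef) {m : ℝ} (hm : m ∈ Icc (0 : ℝ) 1)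
    (j : Fin n) : Monotone (fun X => FXj m s X j) := by
  refine monotone_nat_of_le_succ fun X => ?_
  have h := gfx_Qf_le hs hm X j 1 1
  rw [one_smul, one_smul, one_smul, one_smul] at h
  exact h

theorem IXj_mono {s : Ker n} (hs : ∀ X, (cut X s).PosDef) {m : ℝ} (hm : m ∈ Icc (0 : ℝ) 1)
    (r : ℝ) (j : Fin n) : Monotone (fun X => IXj m r s X j) :=
  monotone_nat_of_le_succ fun X => gfx_Qf_le hs hm X j _ _

theorem IXj_convex {s : Ker n} (hs : ∀ X, (cut X s).PosDef) (r : ℝ) (X : ℕ) (j : Fin n) :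
    ConvexOn ℝ (Icc 0 1) (fun m => IXj m r s X j) := by
  refine ⟨convex_Icc 0 1, fun x hx y hy a b ha hb hab => ?_⟩
  unfold IXj
  simp only [smul_eq_mul]
  have ha' : a = 1 - b := by linarith only [hab]
  have h := Qf_joint_convex (hs X) (hs (X + 1)) (Zr r s X j) (w₀ := 1) (w₁ := 1) hx hy hb
    (by linarith only [ha, hab])
  subst ha'
  simpa only [ge_iff_le, mul_one, sub_add_cancel, one_pow, one_mul] using h

theorem trace1j (s : Ker n) (X : ℕ) (j : Fin n) :
    (cut (X + 1) s * ((annR X j)ᴴ * annR X j)).trace.re = enXj s (X + 1) j := by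
  rw [conj_mul_annR_self', trace_mul_comm]
  unfold Ndj
  rw [re_trace_diag_mul]
  rfl

theorem trace2j (s : Ker n) (X : ℕ) (j : Fin n) :
    (cut X s * (annR X j * (annR X j)ᴴ)).trace.re = enXj s X j + trX s X := by
  rw [annR_mul_conj_self', trace_mul_comm]
  unfold NNj
  rw [re_trace_diag_mul]
  unfold enXj trX
  rw [← Finset.sum_add_distrib]
  refine Finset.sum_congr rfl fun x _ => ?_
  show ((x.1 j : ℝ) + 1) * (s x.1 x.1).re = _
  ring

theorem IXj_eq {s : Ker n} (hs : ∀ X, (cut X s).PosDef) {m : ℝ} (hm : m ∈ Icc (0 : ℝ) 1)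
    (r : ℝ) (X : ℕ) (j : Fin n) :
    IXj m r s X j = (m + r) ^ 2 * FXj m s X j + ((1 - m) + 2 * (m + r)) * enXj s (X + 1) j +
      (m - 2 * (m + r)) * (enXj s X j + trX s X) := by
  unfold IXj FXj Zr
  rw [Qf_thermal hm (hs X) (hs (X + 1)) (annR X j) r]
  unfold pen
  rw [trace1j, trace2j]
  ring

theorem int_FXj {s : Ker n} (hs : ∀ X, (cut X s).PosDef) (X : ℕ) (j : Fin n) :
    IntervalIntegrable (fun m => FXj m s X j) volume 0 1 :=
  (int_Qf (hs X) (hs (X + 1)) (annR X j)).1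

theorem int_IXj_C {s : Ker n} (hs : ∀ X, (cut X s).PosDef) {r : ℝ} (hr : 0 < r) (X : ℕ)
    (j : Fin n) :
    ∫ m in (0 : ℝ)..1, (1 - m) / (r + m) ^ 2 * IXj m r s X j =
      (∫ m in (0 : ℝ)..1, (1 - m) * FXj m s X j) + 1 / r * enXj s (X + 1) j -
        Real.log (1 + 1 / r) * (enXj s X j + trX s X) := by
  set E := enXj s (X + 1) j with hE
  set G := enXj s X j + trX s X with hG
  have h1 : ∀ m ∈ uIcc (0 : ℝ) 1, (1 - m) / (r + m) ^ 2 * IXj m r s X j =
      (1 - m) * FXj m s X j + ((-E + G) + (-G) / (r + m) +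
        ((r + 1) ^ 2 * E - r * (r + 1) * G) / (r + m) ^ 2) := by
    intro m hm
    rw [uIcc_of_le zero_le_one] at hm
    have hp : r + m ≠ 0 := by
      have := hm.1
      (clear * - hr this; positivity)
    rw [IXj_eq hs hm r X j, ← hE, ← hG]
    field_simp
    ring
  have hF : IntervalIntegrable (fun m => (1 - m) * FXj m s X j) volume 0 1 :=
    (int_FXj hs X j).continuousOn_mul (by fun_prop)
  obtain ⟨hi, hv⟩ := gfx_int_rat hr (-E + G) (-G) ((r + 1) ^ 2 * E - r * (r + 1) * G)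
  rw [intervalIntegral.integral_congr h1, intervalIntegral.integral_add hF hi, hv]
  field_simp
  ring

theorem int_IXj_D {s : Ker n} (hs : ∀ X, (cut X s).PosDef) {r : ℝ} (hr : 0 < r) (X : ℕ)
    (j : Fin n) :
    ∫ m in (0 : ℝ)..1, m / (r + m) ^ 2 * IXj m r s X j =
      (∫ m in (0 : ℝ)..1, m * FXj m s X j) + Real.log (1 + 1 / r) * enXj s (X + 1) j -
        1 / (1 + r) * (enXj s X j + trX s X) := by
  set E := enXj s (X + 1) j with hE
  set G := enXj s X j + trX s X with hG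
  have h1 : ∀ m ∈ uIcc (0 : ℝ) 1, m / (r + m) ^ 2 * IXj m r s X j =
      m * FXj m s X j + ((E - G) + E / (r + m) +
        (-(r * (r + 1)) * E + r ^ 2 * G) / (r + m) ^ 2) := by
    intro m hm
    rw [uIcc_of_le zero_le_one] at hm
    have hp : r + m ≠ 0 := by
      have := hm.1
      (clear * - hr this; positivity)
    rw [IXj_eq hs hm r X j, ← hE, ← hG]
    field_simp
    ring
  have hF : IntervalIntegrable (fun m => m * FXj m s X j) volume 0 1 :=
    (int_FXj hs X j).continuousOn_mul (by fun_prop)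
  obtain ⟨hi, hv⟩ := gfx_int_rat hr (E - G) E (-(r * (r + 1)) * E + r ^ 2 * G)
  rw [intervalIntegral.integral_congr h1, intervalIntegral.integral_add hF hi, hv]
  field_simp
  ring

/-- the `u`-form integral: `∫ I/(r+m)` -/
theorem int_IXj_U {s : Ker n} (hs : ∀ X, (cut X s).PosDef) {r : ℝ} (hr : 0 < r) (X : ℕ)
    (j : Fin n) :
    ∫ m in (0 : ℝ)..1, 1 / (r + m) * IXj m r s X j =
      (∫ m in (0 : ℝ)..1, (r + m) * FXj m s X j) +
        (1 + (r + 1) * Real.log (1 + 1 / r)) * enXj s (X + 1) j -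
        (1 + r * Real.log (1 + 1 / r)) * (enXj s X j + trX s X) := by
  set E := enXj s (X + 1) j with hE
  set G := enXj s X j + trX s X with hG
  have h1 : ∀ m ∈ uIcc (0 : ℝ) 1, 1 / (r + m) * IXj m r s X j =
      (r + m) * FXj m s X j + ((E - G) + ((r + 1) * E - r * G) / (r + m) +
        0 / (r + m) ^ 2) := by
    intro m hm
    rw [uIcc_of_le zero_le_one] at hm
    have hp : r + m ≠ 0 := by
      have := hm.1
      (clear * - hr this; positivity)
    rw [IXj_eq hs hm r X j, ← hE, ← hG]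
    field_simp
    ring
  have hF : IntervalIntegrable (fun m => (r + m) * FXj m s X j) volume 0 1 :=
    (int_FXj hs X j).continuousOn_mul (by fun_prop)
  obtain ⟨hi, hv⟩ := gfx_int_rat hr (E - G) ((r + 1) * E - r * G) 0
  rw [intervalIntegral.integral_congr h1, intervalIntegral.integral_add hF hi, hv]
  ring

theorem int_nonneg_w {s : Ker n} (hs : ∀ X, (cut X s).PosDef) {w : ℝ → ℝ}
    (hw0 : ∀ m ∈ Icc (0 : ℝ) 1, 0 ≤ w m) (X : ℕ) (j : Fin n) :
    0 ≤ ∫ m in (0 : ℝ)..1, w m * FXj m s X j :=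
  intervalIntegral.integral_nonneg zero_le_one fun m hm =>
    mul_nonneg (hw0 m hm) (FXj_nonneg hs hm X j)

theorem int_mono_w {s : Ker n} (hs : ∀ X, (cut X s).PosDef) {w : ℝ → ℝ} (hw : Continuous w)
    (hw0 : ∀ m ∈ Icc (0 : ℝ) 1, 0 ≤ w m) (j : Fin n) :
    Monotone fun X => ∫ m in (0 : ℝ)..1, w m * FXj m s X j := by
  intro X X' h
  refine intervalIntegral.integral_mono_on zero_le_one
    ((int_FXj hs X j).continuousOn_mul hw.continuousOn)
    ((int_FXj hs X' j).continuousOn_mul hw.continuousOn) fun m hm => ?_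
  exact mul_le_mul_of_nonneg_left (FXj_mono hs hm j h) (hw0 m hm)

/-! ### continuity along a path -/

theorem continuousOn_FXj {S : Set ℝ} {s : ℝ → Ker n}
    (hs : ∀ k ∈ S, ∀ X, (cut X (s k)).PosDef) (hc : ∀ x y, ContinuousOn (fun k => s k x y) S)
    (X : ℕ) (j : Fin n) :
    ContinuousOn (fun p : ℝ × ℝ => FXj p.2 (s p.1) X j) (S ×ˢ Icc 0 1) :=
  g4_Qf (A := fun k => cut X (s k)) (B := fun k => cut (X + 1) (s k))
    (Z := fun k => annR X j * cut (X + 1) (s k) - cut X (s k) * annR X j) (g4_cut hc X)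
    (g4_cut hc (X + 1)) (g4_Z hc X j) (fun k hk => hs k hk X) (fun k hk => hs k hk (X + 1))

theorem continuousOn_IXj {S : Set ℝ} {s : ℝ → Ker n} {r : ℝ → ℝ}
    (hs : ∀ k ∈ S, ∀ X, (cut X (s k)).PosDef) (hc : ∀ x y, ContinuousOn (fun k => s k x y) S)
    (hr : ContinuousOn r S) (X : ℕ) (j : Fin n) :
    ContinuousOn (fun p : ℝ × ℝ => IXj p.2 (r p.1) (s p.1) X j) (S ×ˢ Icc 0 1) :=
  g4_Qf (A := fun k => cut X (s k)) (B := fun k => cut (X + 1) (s k))
    (Z := fun k => Zr (r k) (s k) X j) (g4_cut hc X) (g4_cut hc (X + 1)) (g4_Zr hc hr X j)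
    (fun k hk => hs k hk X) (fun k hk => hs k hk (X + 1))

theorem continuousOn_int_w {S : Set ℝ} {s : ℝ → Ker n}
    (hs : ∀ k ∈ S, ∀ X, (cut X (s k)).PosDef) (hc : ∀ x y, ContinuousOn (fun k => s k x y) S)
    {w : ℝ → ℝ} (hw : Continuous w) (X : ℕ) (j : Fin n) :
    ContinuousOn (fun k => ∫ m in (0 : ℝ)..1, w m * FXj m (s k) X j) S := by
  refine g4_param (F := fun k m => w m * FXj m (s k) X j) ?_
  exact ContinuousOn.mul (f := fun p : ℝ × ℝ => w p.2) (by fun_prop) (continuousOn_FXj hs hc X j)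

theorem continuousOn_Ppj {S : Set ℝ} {s : ℝ → Ker n}
    (hs : ∀ k ∈ S, ∀ X, (cut X (s k)).PosDef) (hc : ∀ x y, ContinuousOn (fun k => s k x y) S)
    (X : ℕ) (j : Fin n) : ContinuousOn (fun k => Ppj (s k) X j) S :=
  (continuousOn_trX hc (X + 1)).add
    (continuousOn_int_w hs hc (w := fun m => 1 - m) (by fun_prop) X j)

theorem continuousOn_Pmj {S : Set ℝ} {s : ℝ → Ker n}
    (hs : ∀ k ∈ S, ∀ X, (cut X (s k)).PosDef) (hc : ∀ x y, ContinuousOn (fun k => s k x y) S)
    (X : ℕ) (j : Fin n) : ContinuousOn (fun k => Pmj (s k) X j) S :=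
  (continuousOn_trX hc X).sub (continuousOn_int_w hs hc (w := fun m => m) (by fun_prop) X j)

theorem continuousOn_uBj {S : Set ℝ} {s : ℝ → Ker n}
    (hs : ∀ k ∈ S, ∀ X, (cut X (s k)).PosDef) (hc : ∀ x y, ContinuousOn (fun k => s k x y) S)
    (X : ℕ) (j : Fin n) : ContinuousOn (fun k => uBj (s k) X j) S := by
  unfold uBj
  exact continuousOn_finsetSum _ fun x _ => continuousOn_const.mul (g4_nml hs hc X x)

theorem continuousOn_wBj {S : Set ℝ} {s : ℝ → Ker n}
    (hs : ∀ k ∈ S, ∀ X, (cut X (s k)).PosDef) (hc : ∀ x y, ContinuousOn (fun k => s k x y) S)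
    (X : ℕ) (j : Fin n) : ContinuousOn (fun k => wBj (s k) X j) S := by
  unfold wBj
  exact continuousOn_finsetSum _ fun x _ => continuousOn_const.mul (g4_nml hs hc X x)

/-! ### bounds for the boundary terms -/

theorem wBj_nonneg {s : Ker n} {X : ℕ} (hs : (cut X s).PosSemidef) (ht : trX s X ≤ 1)
    (j : Fin n) : 0 ≤ wBj s X j := by
  rw [trX_eq] at ht
  exact Finset.sum_nonneg fun x _ => mul_nonneg (Nat.cast_nonneg _) (e1_diag_nonneg hs ht x)

theorem wBj_le_uBj {s : Ker n} {X : ℕ} (hs : (cut X s).PosSemidef) (ht : trX s X ≤ 1)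
    (j : Fin n) : wBj s X j ≤ uBj s X j := by
  rw [trX_eq] at ht
  exact Finset.sum_le_sum fun x _ =>
    mul_le_mul_of_nonneg_right (by linarith) (e1_diag_nonneg hs ht x)

theorem uBj_le_uB {s : Ker n} {X : ℕ} (hs : (cut X s).PosSemidef) (ht : trX s X ≤ 1)
    (j : Fin n) : uBj s X j ≤ uB s X := by
  rw [trX_eq] at ht
  refine Finset.sum_le_sum fun x _ => mul_le_mul_of_nonneg_right ?_ (e1_diag_nonneg hs ht x)
  have h1 : (x.1 j : ℝ) ≤ ∑ i, (x.1 i : ℝ) :=
    Finset.single_le_sum (f := fun i => (x.1 i : ℝ)) (fun _ _ => Nat.cast_nonneg _)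
      (Finset.mem_univ j)
  have h2 : (1 : ℝ) ≤ n := by exact_mod_cast Nat.one_le_iff_ne_zero.2 (fun h => by
    subst h; exact j.elim0)
  linarith

end

end Vale.Agent.P369F
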