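import Vale.Agent.P369.Bd3.B2

/-!
P369F (helper809): the loss channel with a VECTOR of transmissivities, definitions.
-/

namespace Vale.Agent.P369F

open Matrix
open Vale.Agent.P369 (Conf up down)
open Vale.Agent.P369A

noncomputable section

variable {n : ℕ}

/-- one-mode kernel of the loss channel of transmissivity `x`: `⟨a| loss_x(|k⟩⟨k'|) |b⟩` -/
def lk (x : ℝ) (a b k k' : ℕ) : ℝ :=
  if k + b = k' + a ∧ a ≤ k then
    Real.sqrt ((k.choose a : ℕ) : ℝ) * Real.sqrt ((k'.choose b : ℕ) : ℝ) *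
      (Real.sqrt x ^ a * Real.sqrt x ^ b) * (1 - x) ^ (k - a) else 0

/-- kernel of the loss channel with transmissivities `x : Fin n → ℝ` -/
def lkV (x : Fin n → ℝ) (a b k k' : Conf n) : ℝ := ∏ j, lk (x j) (a j) (b j) (k j) (k' j)

variable {M : ℕ}

/-- the loss channel with transmissivities `x : Fin n → ℝ`, on matrices of the box -/
def lossV (x : Fin n → ℝ) (ρ : Matrix (Fin n → Fin (M + 1)) (Fin n → Fin (M + 1)) ℂ) :
    Matrix (Fin n → Fin (M + 1)) (Fin n → Fin (M + 1)) ℂ := fun a b =>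
  ∑ m, ∑ m', ((lkV x (te a) (te b) (te m) (te m') : ℝ) : ℂ) * ρ m m'

/-- the same, as an infinite matrix: `lossK x ρ = ext (lossV x ρ)` -/
def lossK (x : Fin n → ℝ) (ρ : Matrix (Fin n → Fin (M + 1)) (Fin n → Fin (M + 1)) ℂ) : Ker n :=
  fun a b => ∑ m, ∑ m', ((lkV x a b (te m) (te m') : ℝ) : ℂ) * ρ m m'

theorem lk_zero_left {x : ℝ} {a b k k' : ℕ} (h : k < a) : lk x a b k k' = 0 := by
  unfold lk
  rw [if_neg]
  omega

theorem lk_zero_right {x : ℝ} {a b k k' : ℕ} (h : k' < b) : lk x a b k k' = 0 := by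
  unfold lk
  rw [if_neg]
  omega

theorem ext_lossV (x : Fin n → ℝ) (ρ : Matrix (Fin n → Fin (M + 1)) (Fin n → Fin (M + 1)) ℂ) :
    P369A.ext (lossV x ρ) = lossK x ρ := by
  funext a b
  unfold P369A.ext lossV lossK
  by_cases h : (∀ j, a j < M + 1) ∧ (∀ j, b j < M + 1)
  · rw [dif_pos h]
    rfl
  · rw [dif_neg h]
    symm
    refine Finset.sum_eq_zero fun m _ => Finset.sum_eq_zero fun m' _ => ?_
    have h0 : lkV x a b (te m) (te m') = 0 := by
      unfold lkV
      rw [not_and_or] at h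
      rcases h with h | h
      · obtain ⟨j, hj⟩ := not_forall.1 h
        refine Finset.prod_eq_zero (Finset.mem_univ j) (lk_zero_left ?_)
        have := (m j).2
        simp only [te]
        omega
      · obtain ⟨j, hj⟩ := not_forall.1 h
        refine Finset.prod_eq_zero (Finset.mem_univ j) (lk_zero_right ?_)
        have := (m' j).2
        simp only [te]
        omega
    rw [h0, Complex.ofReal_zero, zero_mul]

end

end Vale.Agent.P369F
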