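import Vale.Agent.P369.H809.Path
import Vale.Agent.P369.H326.Fd

/-!
P369F (helper809): the hypotheses `hloss`, `hpath` of `P369N.thFd_of_iso`.
-/

namespace Vale.Agent.P369F

open Matrix Set
open Vale.Agent.P369A
open Vale.Agent.P369V (Cf)
open Vale.Agent.P369N (thP)
open scoped ComplexOrder

noncomputable section

variable {n : ℕ}

theorem hloss_deliver (M : ℕ) (ρ : Matrix (Fin n → Fin (M + 1)) (Fin n → Fin (M + 1)) ℂ)
    (hρ : ρ.PosDef) (ht : ρ.trace = 1) (x : Fin n → ℝ) (hx : ∀ j, 0 < x j ∧ x j ≤ 1) :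
    (lossV x ρ).PosDef ∧ (lossV x ρ).trace = 1 :=
  ⟨lossV_posDef (fun j => (hx j).1) (fun j => (hx j).2) hρ,
    (lossV_trace (fun j => (hx j).1.le) ρ).trans ht⟩

theorem hpath_deliver {s : Fin n → ℝ} (hs : ∀ j, 0 < s j) (M : ℕ)
    (ρ : Matrix (Fin n → Fin (M + 1)) (Fin n → Fin (M + 1)) ℂ)
    (hρ : ρ.PosDef) (ht : ρ.trace = 1) (a b : ℝ) (ha : 0 < a) (_hab : a ≤ b) :
    ∃ E, GPath (thP s ρ) (fun j _ => s j) (fun j _ => s j + 1) a b E :=
  ⟨_, gpath_thermal hρ ht hs ha⟩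

end

end Vale.Agent.P369F
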