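import Vale.Agent.P369.H809.Loss
import Vale.Agent.P369.H817.Deriv
import Vale.Agent.P369.H400.VecD

/-!
P369F (helper809): the generator of the path `t ↦ CkV (lossV (x t) ρ) (k t)`.
-/

namespace Vale.Agent.P369F

open Matrix
open Vale.Agent.P369 (Conf up down)
open Vale.Agent.P369A
open Vale.Agent.P369V (Cf)
open Vale.Agent.P369V8 (tCV tCV_up sum_tCV ampV_eq hasDerivAt_ccV hasDerivAt_ampV)
open Vale.Agent.P369W (ccV ampV CkV ccV_r1)
open scoped ComplexOrder

noncomputable section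

variable {n M : ℕ}

/-- weighted shift of the sum over the environment -/
theorem sum_tCV_w {k : Fin n → ℝ} {j : Fin n} (hk : 1 < k j) (s : Ker n) (x y : Conf n)
    (w : ℝ → ℝ) :
    ∑ l ∈ Finset.Iic (up x j ⊓ up y j),
      (((l j : ℝ) * (k j / (k j - 1)) * w (l j) : ℝ) : ℂ) * tCV k s (up x j) (up y j) l =
      ((Real.sqrt ((x j : ℝ) + 1) * Real.sqrt ((y j : ℝ) + 1) : ℝ) : ℂ) *
        ∑ l ∈ Finset.Iic (x ⊓ y), ((w ((l j : ℝ) + 1) : ℝ) : ℂ) * tCV k s x y l := by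
  rw [Finset.mul_sum]
  rw [← Finset.sum_filter_add_sum_filter_not (Finset.Iic (up x j ⊓ up y j)) (fun l => 1 ≤ l j)]
  have e0 : ∑ l ∈ (Finset.Iic (up x j ⊓ up y j)).filter (fun l => ¬ 1 ≤ l j),
      (((l j : ℝ) * (k j / (k j - 1)) * w (l j) : ℝ) : ℂ) * tCV k s (up x j) (up y j) l = 0 := by
    refine Finset.sum_eq_zero fun l hl => ?_
    have h1 := (Finset.mem_filter.1 hl).2
    have h2 : l j = 0 := by omega
    rw [h2]
    simp
  rw [e0, add_zero]
  have hx1 : 1 ≤ up x j j := by rw [up_same]; omega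
  have hy1 : 1 ≤ up y j j := by rw [up_same]; omega
  refine Finset.sum_nbij' (fun l => down l j) (fun l => up l j) ?_ ?_ ?_ ?_ ?_
  · intro l hl
    obtain ⟨h1, h2⟩ := Finset.mem_filter.1 hl
    have h3 := le_inf_iff.1 (Finset.mem_Iic.1 h1)
    have h4 := down_le h3.1 j
    have h5 := down_le h3.2 j
    rw [down_up] at h4 h5
    exact Finset.mem_Iic.2 (le_inf h4 h5)
  · intro l hl
    have h3 := le_inf_iff.1 (Finset.mem_Iic.1 hl)
    refine Finset.mem_filter.2 ⟨Finset.mem_Iic.2 (le_inf (up_le_of hx1 ?_) (up_le_of hy1 ?_)), ?_⟩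
    · rw [down_up]; exact h3.1
    · rw [down_up]; exact h3.2
    · rw [up_same]
      omega
  · intro l hl
    exact up_down (Finset.mem_filter.1 hl).2
  · intro l _
    exact down_up l j
  · intro l hl
    obtain ⟨h1, h2⟩ := Finset.mem_filter.1 hl
    have h3 := le_inf_iff.1 (Finset.mem_Iic.1 h1)
    have h4 := tCV_up hk s hx1 hy1 (down_le h3.1 j) (down_le h3.2 j)
    rw [up_down h2, down_up, down_up, up_same, up_same] at h4
    push_cast at h4
    have h5 : (((down l j) j : ℕ) : ℝ) + 1 = l j := by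
      rw [down_same]
      have : l j - 1 + 1 = l j := by omega
      exact_mod_cast this
    rw [h5]
    push_cast
    linear_combination ((w (l j) : ℝ) : ℂ) * h4

theorem le_up_self (x : Conf n) (j : Fin n) : x ≤ up x j := by
  intro i
  by_cases hi : i = j
  · rw [hi, up_same]
    exact Nat.le_succ _
  · rw [up_ne _ hi]

theorem up_sub_of_le {x l : Conf n} {j : Fin n} (h : l ≤ x) : up x j - l = up (x - l) j := by
  funext i
  by_cases hi : i = j
  · subst hi
    rw [Pi.sub_apply, up_same, up_same, Pi.sub_apply]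
    have h1 : l i ≤ x i := h i
    omega
  · rw [Pi.sub_apply, up_ne _ hi, up_ne _ hi, Pi.sub_apply]

/-- **commutation of the amplifier with the loss generator of one mode**, for every kernel -/
theorem ampV_genLj {k : Fin n → ℝ} {j : Fin n} (hk : 1 < k j) (hk0 : ∀ i, 0 < k i) (s : Ker n)
    (x y : Conf n) :
    ampV k (genLj s j) x y = (k j : ℂ) * genLj (ampV k s) j x y +
      ((k j - 1 : ℝ) : ℂ) * genAj (ampV k s) j x y := by
  set q : ℝ := Real.sqrt ((x j : ℝ) + 1) * Real.sqrt ((y j : ℝ) + 1) with hq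
  have hq0 : (q : ℂ) ≠ 0 := by
    have : 0 < q := by positivity
    exact_mod_cast this.ne'
  have hqq : q * q = ((x j : ℝ) + 1) * ((y j : ℝ) + 1) := by
    have h1 : Real.sqrt ((x j : ℝ) + 1) * Real.sqrt ((x j : ℝ) + 1) = (x j : ℝ) + 1 :=
      Real.mul_self_sqrt (by positivity)
    have h2 : Real.sqrt ((y j : ℝ) + 1) * Real.sqrt ((y j : ℝ) + 1) = (y j : ℝ) + 1 :=
      Real.mul_self_sqrt (by positivity)
    calc q * q = (Real.sqrt ((x j : ℝ) + 1) * Real.sqrt ((x j : ℝ) + 1)) *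
        (Real.sqrt ((y j : ℝ) + 1) * Real.sqrt ((y j : ℝ) + 1)) := by rw [hq]; ring
      _ = _ := by rw [h1, h2]
  set S := Finset.Iic (up x j ⊓ up y j) with hS
  set T : Conf n → ℂ := tCV k s (up x j) (up y j) with hT
  set κ : ℝ := k j / (k j - 1) with hκ
  have hk1 : k j - 1 ≠ 0 := by linarith
  -- the three sums on the right
  have r1 : (q : ℂ) * ampV k s x y = ∑ l ∈ S, (((l j : ℝ) * κ : ℝ) : ℂ) * T l := by
    have h := sum_tCV_w hk s x y (fun _ => 1)
    simp only [mul_one, Complex.ofReal_one, one_mul] at h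
    rw [ampV_eq, ← h]
  have r2 : (q : ℂ) * (((Real.sqrt (x j) * Real.sqrt (y j) : ℝ) : ℂ) *
      ampV k s (down x j) (down y j)) =
      ∑ l ∈ S, (((l j : ℝ) * κ * ((l j - 1) * κ) : ℝ) : ℂ) * T l := by
    have h := sum_tCV_w hk s x y (fun u => (u - 1) * κ)
    rw [h, ← sum_tCV hk s x y]
    congr 1
    refine Finset.sum_congr rfl fun l _ => ?_
    simp only [add_sub_cancel_right]
    rfl
  have r3 : (q : ℂ) * ((q : ℂ) * ampV k s (up x j) (up y j)) =
      ∑ l ∈ S, ((((x j : ℝ) + 1) * ((y j : ℝ) + 1) : ℝ) : ℂ) * T l := by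
    rw [← mul_assoc, ← Complex.ofReal_mul, hqq, ampV_eq, Finset.mul_sum]
  -- the left side
  have l2 : (q : ℂ) * ∑ l ∈ Finset.Iic (x ⊓ y),
      (((((x - l) j : ℕ) : ℝ) + (((y - l) j : ℕ) : ℝ)) / 2 : ℝ) * tCV k s x y l =
      ∑ l ∈ S, (((l j : ℝ) * κ * ((((x j : ℝ) + 1 - l j) + ((y j : ℝ) + 1 - l j)) / 2) : ℝ) : ℂ) *
        T l := by
    have h := sum_tCV_w hk s x y (fun u => (((x j : ℝ) + 1 - u) + ((y j : ℝ) + 1 - u)) / 2)
    rw [h]
    congr 1
    refine Finset.sum_congr rfl fun l hl => ?_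
    have h3 := le_inf_iff.1 (Finset.mem_Iic.1 hl)
    have ex : (((x - l) j : ℕ) : ℝ) = x j - l j := by
      rw [Pi.sub_apply, Nat.cast_sub (h3.1 j)]
    have ey : (((y - l) j : ℕ) : ℝ) = y j - l j := by
      rw [Pi.sub_apply, Nat.cast_sub (h3.2 j)]
    rw [ex, ey]
    congr 2
    ring
  have l1 : (q : ℂ) * ∑ l ∈ Finset.Iic (x ⊓ y),
      ((ccV k (x - l) l * ccV k (y - l) l : ℝ) : ℂ) *
        (((Real.sqrt ((((x - l) j : ℕ) : ℝ) + 1) * Real.sqrt ((((y - l) j : ℕ) : ℝ) + 1) : ℝ) : ℂ) *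
          s (up (x - l) j) (up (y - l) j)) =
      ∑ l ∈ S, ((k j * (((x j : ℝ) + 1 - l j) * ((y j : ℝ) + 1 - l j)) : ℝ) : ℂ) * T l := by
    have hsub : Finset.Iic (x ⊓ y) ⊆ S := by
      intro l hl
      have h3 := le_inf_iff.1 (Finset.mem_Iic.1 hl)
      refine Finset.mem_Iic.2 (le_inf (h3.1.trans ?_) (h3.2.trans ?_))
      · exact le_up_self x j
      · exact le_up_self y j
    rw [← Finset.sum_subset hsub, Finset.mul_sum]
    · refine Finset.sum_congr rfl fun l hl => ?_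
      have h3 := le_inf_iff.1 (Finset.mem_Iic.1 hl)
      have ex : (((x - l) j : ℕ) : ℝ) = x j - l j := by
        rw [Pi.sub_apply, Nat.cast_sub (h3.1 j)]
      have ey : (((y - l) j : ℕ) : ℝ) = y j - l j := by
        rw [Pi.sub_apply, Nat.cast_sub (h3.2 j)]
      have a1 := ccV_r1 hk0 (x - l) l j
      have a2 := ccV_r1 hk0 (y - l) l j
      have b1 : (((x - l) j : ℕ) : ℝ) + l j + 1 = (x j : ℝ) + 1 := by rw [ex]; ring
      have b2 : (((y - l) j : ℕ) : ℝ) + l j + 1 = (y j : ℝ) + 1 := by rw [ey]; ring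
      rw [b1] at a1
      rw [b2] at a2
      have c1' : Real.sqrt (k j) * Real.sqrt (k j) = k j := Real.mul_self_sqrt (hk0 j).le
      have c2 : Real.sqrt ((((x - l) j : ℕ) : ℝ) + 1) * Real.sqrt ((((x - l) j : ℕ) : ℝ) + 1) =
        (x j : ℝ) + 1 - l j := by rw [Real.mul_self_sqrt (by positivity), ex]; ring
      have c3 : Real.sqrt ((((y - l) j : ℕ) : ℝ) + 1) * Real.sqrt ((((y - l) j : ℕ) : ℝ) + 1) =
        (y j : ℝ) + 1 - l j := by rw [Real.mul_self_sqrt (by positivity), ey]; ring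
      have key : q * (ccV k (x - l) l * ccV k (y - l) l *
          (Real.sqrt ((((x - l) j : ℕ) : ℝ) + 1) * Real.sqrt ((((y - l) j : ℕ) : ℝ) + 1))) =
          k j * (((x j : ℝ) + 1 - l j) * ((y j : ℝ) + 1 - l j)) *
            (ccV k (up (x - l) j) l * ccV k (up (y - l) j) l) := by
        rw [hq]
        calc _ = (Real.sqrt ((x j : ℝ) + 1) * ccV k (x - l) l) *
              (Real.sqrt ((y j : ℝ) + 1) * ccV k (y - l) l) *
              (Real.sqrt ((((x - l) j : ℕ) : ℝ) + 1) * Real.sqrt ((((y - l) j : ℕ) : ℝ) + 1)) := by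
              ring
          _ = (Real.sqrt (k j) * Real.sqrt (k j)) *
              ((Real.sqrt ((((x - l) j : ℕ) : ℝ) + 1) * Real.sqrt ((((x - l) j : ℕ) : ℝ) + 1)) *
              (Real.sqrt ((((y - l) j : ℕ) : ℝ) + 1) * Real.sqrt ((((y - l) j : ℕ) : ℝ) + 1))) *
              (ccV k (up (x - l) j) l * ccV k (up (y - l) j) l) := by
              rw [a1, a2]; ring
          _ = _ := by rw [c1', c2, c3]
      have hT' : T l = ((ccV k (up (x - l) j) l * ccV k (up (y - l) j) l : ℝ) : ℂ) *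
          s (up (x - l) j) (up (y - l) j) := by
        rw [hT]
        unfold tCV
        rw [up_sub_of_le h3.1, up_sub_of_le h3.2]
      rw [hT', ← mul_assoc, ← mul_assoc, ← mul_assoc, ← Complex.ofReal_mul, ← Complex.ofReal_mul,
        ← Complex.ofReal_mul, mul_assoc q, key]
    · intro l hl hl'
      have h3 := le_inf_iff.1 (Finset.mem_Iic.1 hl)
      have h4 : ¬ (l ≤ x ∧ l ≤ y) := fun h => hl' (Finset.mem_Iic.2 (le_inf h.1 h.2))
      have h5 : ∀ z : Conf n, l ≤ up z j → ¬ l ≤ z → (z j : ℝ) + 1 - l j = 0 := by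
        intro z hz hz'
        have h6 : ¬ l j ≤ z j := by
          intro h7
          apply hz'
          intro i
          by_cases hi : i = j
          · rw [hi]; exact h7
          · have h8 : l i ≤ up z j i := hz i
            rwa [up_ne _ hi] at h8
        have h7 : l j ≤ up z j j := hz j
        rw [up_same] at h7
        have h8 : l j = z j + 1 := by omega
        rw [h8]
        push_cast
        ring
      have h6 : ((x j : ℝ) + 1 - l j) * ((y j : ℝ) + 1 - l j) = 0 := by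
        by_cases hx : l ≤ x
        · rw [h5 y h3.2 (fun hy => h4 ⟨hx, hy⟩), mul_zero]
        · rw [h5 x h3.1 hx, zero_mul]
      rw [h6, mul_zero, Complex.ofReal_zero, zero_mul]
  apply mul_left_cancel₀ hq0
  have hL : (q : ℂ) * ampV k (genLj s j) x y =
      ∑ l ∈ S, ((k j * (((x j : ℝ) + 1 - l j) * ((y j : ℝ) + 1 - l j)) : ℝ) : ℂ) * T l -
      ∑ l ∈ S, (((l j : ℝ) * κ * ((((x j : ℝ) + 1 - l j) + ((y j : ℝ) + 1 - l j)) / 2) : ℝ) : ℂ) *
        T l := by
    rw [← l1, ← l2, ← mul_sub, ← Finset.sum_sub_distrib]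
    congr 1
    unfold ampV genLj
    refine Finset.sum_congr rfl fun l _ => ?_
    unfold tCV
    push_cast
    ring
  have hR : (q : ℂ) * ((k j : ℂ) * genLj (ampV k s) j x y +
      ((k j - 1 : ℝ) : ℂ) * genAj (ampV k s) j x y) =
      (k j : ℂ) * ((q : ℂ) * ((q : ℂ) * ampV k s (up x j) (up y j))) -
      (k j : ℂ) * ((((x j : ℝ) + (y j : ℝ)) / 2 : ℝ) : ℂ) * ((q : ℂ) * ampV k s x y) +
      ((k j - 1 : ℝ) : ℂ) * ((q : ℂ) * (((Real.sqrt (x j) * Real.sqrt (y j) : ℝ) : ℂ) *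
        ampV k s (down x j) (down y j))) -
      ((k j - 1 : ℝ) : ℂ) * ((((x j : ℝ) + (y j : ℝ)) / 2 + 1 : ℝ) : ℂ) *
        ((q : ℂ) * ampV k s x y) := by
    unfold genLj genAj
    rw [← hq]
    ring
  rw [hL, hR, r1, r2, r3, Finset.mul_sum, Finset.mul_sum, Finset.mul_sum, Finset.mul_sum,
    ← Finset.sum_sub_distrib, ← Finset.sum_sub_distrib, ← Finset.sum_add_distrib,
    ← Finset.sum_sub_distrib]
  refine Finset.sum_congr rfl fun l _ => ?_
  have e : k j * (((x j : ℝ) + 1 - l j) * ((y j : ℝ) + 1 - l j)) -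
      (l j : ℝ) * κ * ((((x j : ℝ) + 1 - l j) + ((y j : ℝ) + 1 - l j)) / 2) =
      k j * (((x j : ℝ) + 1) * ((y j : ℝ) + 1)) - k j * (((x j : ℝ) + (y j : ℝ)) / 2) *
        ((l j : ℝ) * κ) + (k j - 1) * ((l j : ℝ) * κ * ((l j - 1) * κ)) -
      (k j - 1) * (((x j : ℝ) + (y j : ℝ)) / 2 + 1) * ((l j : ℝ) * κ) := by
    rw [hκ]
    field_simp
    ring
  have e2 : ((k j * (((x j : ℝ) + 1 - l j) * ((y j : ℝ) + 1 - l j)) -
      (l j : ℝ) * κ * ((((x j : ℝ) + 1 - l j) + ((y j : ℝ) + 1 - l j)) / 2) : ℝ) : ℂ) * T l =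
      ((k j * (((x j : ℝ) + 1) * ((y j : ℝ) + 1)) - k j * (((x j : ℝ) + (y j : ℝ)) / 2) *
        ((l j : ℝ) * κ) + (k j - 1) * ((l j : ℝ) * κ * ((l j - 1) * κ)) -
      (k j - 1) * (((x j : ℝ) + (y j : ℝ)) / 2 + 1) * ((l j : ℝ) * κ) : ℝ) : ℂ) * T l := by
    rw [e]
  push_cast at e2 ⊢
  linear_combination e2

/-- product rule for the amplifier along a path of gains and kernels -/
theorem hasDerivAt_ampV_path {k : ℝ → Fin n → ℝ} {k' : Fin n → ℝ} {t : ℝ}
    (hk : ∀ j, 1 < k t j) (hd : ∀ j, HasDerivAt (fun u => k u j) (k' j) t)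
    {s : ℝ → Ker n} {s' : Ker n} (hs : ∀ p q, HasDerivAt (fun u => s u p q) (s' p q) t)
    (x y : Conf n) :
    HasDerivAt (fun u => ampV (k u) (s u) x y)
      (∑ j, ((k' j / k t j : ℝ) : ℂ) * genAj (ampV (k t) (s t)) j x y + ampV (k t) s' x y) t := by
  have hc : ∀ l : Conf n, ∃ D : ℂ, HasDerivAt
      (fun u => ((ccV (k u) (x - l) l * ccV (k u) (y - l) l : ℝ) : ℂ)) D t := fun l =>
    ⟨_, ((hasDerivAt_ccV hk hd (x - l) l).mul (hasDerivAt_ccV hk hd (y - l) l)).ofReal_comp⟩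
  choose D hD using hc
  have h1 : HasDerivAt (fun u => ampV (k u) (s t) x y)
      (∑ l ∈ Finset.Iic (x ⊓ y), D l * s t (x - l) (y - l)) t :=
    HasDerivAt.fun_sum fun l _ => (hD l).mul_const (s t (x - l) (y - l))
  have h2 := h1.unique (hasDerivAt_ampV hk hd (s t) x y)
  have h3 : HasDerivAt (fun u => ampV (k u) (s u) x y)
      (∑ l ∈ Finset.Iic (x ⊓ y), (D l * s t (x - l) (y - l) +
        ((ccV (k t) (x - l) l * ccV (k t) (y - l) l : ℝ) : ℂ) * s' (x - l) (y - l))) t :=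
    HasDerivAt.fun_sum fun l _ => (hD l).mul (hs (x - l) (y - l))
  refine h3.congr_deriv ?_
  rw [Finset.sum_add_distrib, h2]
  rfl

theorem ampV_sum {k : Fin n → ℝ} (c : Fin n → ℂ) (S : Fin n → Ker n) (x y : Conf n) :
    ampV k (fun p q => ∑ j, c j * S j p q) x y = ∑ j, c j * ampV k (S j) x y := by
  unfold ampV
  simp only [Finset.mul_sum]
  rw [Finset.sum_comm]
  refine Finset.sum_congr rfl fun j _ => Finset.sum_congr rfl fun l _ => ?_
  ring

/-- **the equation of `t ↦ CkV (lossV (x t) ρ) (k t)`** -/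
theorem hasDerivAt_CL {x : ℝ → Fin n → ℝ} {x' : Fin n → ℝ} {k : ℝ → Fin n → ℝ} {k' : Fin n → ℝ}
    {t : ℝ} (hk : ∀ j, 1 < k t j) (hd : ∀ j, HasDerivAt (fun u => k u j) (k' j) t)
    (hx : ∀ j, 0 < x t j) (hdx : ∀ j, HasDerivAt (fun u => x u j) (x' j) t)
    (ρ : Matrix (Cf n M) (Cf n M) ℂ) (p q : Conf n) :
    HasDerivAt (fun u => CkV (lossV (x u) ρ) (k u) p q)
      (∑ j, (((k' j / k t j - x' j / x t j * (k t j - 1) : ℝ) : ℂ) *
          genAj (CkV (lossV (x t) ρ) (k t)) j p q +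
        ((-(x' j / x t j) * k t j : ℝ) : ℂ) * genLj (CkV (lossV (x t) ρ) (k t)) j p q)) t := by
  have e : ∀ u, CkV (lossV (x u) ρ) (k u) = ampV (k u) (lossK (x u) ρ) := fun u => by
    unfold CkV
    rw [ext_lossV]
  have h := hasDerivAt_ampV_path hk hd (s := fun u => lossK (x u) ρ)
    (s' := fun a b => ∑ j, ((-(x' j / x t j) : ℝ) : ℂ) * genLj (lossK (x t) ρ) j a b)
    (fun a b => hasDerivAt_lossK hx hdx ρ a b) p q
  have e2 : (fun u => CkV (lossV (x u) ρ) (k u) p q) = fun u => ampV (k u) (lossK (x u) ρ) p q :=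
    funext fun u => by rw [e]
  rw [e2]
  refine h.congr_deriv ?_
  rw [ampV_sum, ← Finset.sum_add_distrib, e]
  refine Finset.sum_congr rfl fun j _ => ?_
  rw [ampV_genLj (hk j) (fun i => by linarith [hk i])]
  push_cast
  ring

/-! ### hermiticity -/

theorem herm_ext {ρ : Matrix (Cf n M) (Cf n M) ℂ} (hρ : ρ.IsHermitian) (a b : Conf n) :
    star (P369A.ext ρ b a) = P369A.ext ρ a b := by
  unfold P369A.ext
  by_cases h : (∀ j, a j < M + 1) ∧ (∀ j, b j < M + 1)
  · rw [dif_pos h, dif_pos ⟨h.2, h.1⟩]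
    exact hρ.apply _ _
  · rw [dif_neg h, dif_neg (fun h' => h ⟨h'.2, h'.1⟩), star_zero]

theorem herm_ampV {k : Fin n → ℝ} {s : Ker n} (hs : ∀ a b, star (s b a) = s a b) (a b : Conf n) :
    star (ampV k s b a) = ampV k s a b := by
  unfold ampV
  rw [star_sum, inf_comm]
  refine Finset.sum_congr rfl fun l _ => ?_
  rw [star_mul', hs, Complex.star_def, Complex.conj_ofReal, mul_comm (ccV k (b - l) l)]

theorem herm_cut {s : Ker n} (hs : ∀ a b, star (s b a) = s a b) (X : ℕ) :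
    (cut X s).IsHermitian := by
  ext a b
  exact hs a.1 b.1

theorem herm_CkV {ρ : Matrix (Cf n M) (Cf n M) ℂ} (hρ : ρ.IsHermitian) (k : Fin n → ℝ) (X : ℕ) :
    (cut X (CkV ρ k)).IsHermitian := herm_cut (herm_ampV (herm_ext hρ)) X

end

end Vale.Agent.P369F
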