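import Vale.Agent.P369.H809.LossDefs
import Vale.Agent.P369.H809.Defs
import Vale.Agent.P369.H400.VecDefs

/-!
P369F (helper809): the loss channel with a vector of transmissivities: positivity, trace, energies,
derivative.
-/

namespace Vale.Agent.P369F

open Matrix
open Vale.Agent.P369 (Conf up down)
open Vale.Agent.P369A
open Vale.Agent.P369V (d1b d1_sum d1_sum₂ d1_b_star d3b d3b_closed d4_sqrt_pow Cf)
open scoped ComplexOrder

noncomputable section

variable {n M : ℕ}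

/-! ### one mode -/

theorem lk_eq_d3b {x : ℝ} (h1 : x ≤ 1) {a b m m' : ℕ} (hm : m ≤ M) :
    ((lk x a b m m' : ℝ) : ℂ) = d3b M x a b m m' := by
  rw [d3b_closed h1 hm]
  unfold lk
  split_ifs <;> simp

theorem lk_diag {x : ℝ} (h0 : 0 ≤ x) (a m m' : ℕ) :
    lk x a a m m' = if m = m' then ((m.choose a : ℕ) : ℝ) * x ^ a * (1 - x) ^ (m - a) else 0 := by
  unfold lk
  by_cases h : m = m'
  · subst h
    rw [if_pos rfl]
    by_cases ha : a ≤ m
    · rw [if_pos ⟨rfl, ha⟩, Real.mul_self_sqrt (Nat.cast_nonneg _), ← mul_pow,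
        Real.mul_self_sqrt h0]
    · rw [if_neg (fun h' => ha h'.2), Nat.choose_eq_zero_of_lt (by omega)]
      simp
  · rw [if_neg h, if_neg]
    omega

theorem sum_lk {x : ℝ} (h0 : 0 ≤ x) (m m' : Fin (M + 1)) :
    ∑ a : Fin (M + 1), lk x a a m m' = if m = m' then 1 else 0 := by
  have hm := m.2
  by_cases h : m = m'
  · subst h
    rw [if_pos rfl]
    have e1 : ∀ a : Fin (M + 1), lk x a a m m =
        (((m : ℕ).choose a : ℕ) : ℝ) * x ^ (a : ℕ) * (1 - x) ^ ((m : ℕ) - a) := by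
      intro a
      rw [lk_diag h0, if_pos rfl]
    rw [Finset.sum_congr rfl fun a _ => e1 a, Fin.sum_univ_eq_sum_range (fun a =>
      (((m : ℕ).choose a : ℕ) : ℝ) * x ^ a * (1 - x) ^ ((m : ℕ) - a)) (M + 1)]
    have e2 : Finset.range ((m : ℕ) + 1) ⊆ Finset.range (M + 1) := by
      intro a ha
      rw [Finset.mem_range] at ha ⊢
      omega
    rw [← Finset.sum_subset e2]
    · have h3 := add_pow x (1 - x) (m : ℕ)
      rw [show x + (1 - x) = 1 by ring, one_pow] at h3
      refine Eq.trans (Finset.sum_congr rfl fun a _ => ?_) h3.symm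
      ring
    · intro a _ ha
      rw [Finset.mem_range] at ha
      rw [Nat.choose_eq_zero_of_lt (by omega)]
      simp
  · rw [if_neg h]
    refine Finset.sum_eq_zero fun a _ => ?_
    rw [lk_diag h0, if_neg (fun h' => h (Fin.ext h'))]

theorem sum_mul_lk {x : ℝ} (h0 : 0 ≤ x) (m m' : Fin (M + 1)) :
    ∑ a : Fin (M + 1), ((a : ℕ) : ℝ) * lk x a a m m' = if m = m' then x * ((m : ℕ) : ℝ) else 0 := by
  have hm := m.2
  by_cases h : m = m'
  · subst h
    rw [if_pos rfl]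
    have e1 : ∀ a : Fin (M + 1), ((a : ℕ) : ℝ) * lk x a a m m =
        ((a : ℕ) : ℝ) * ((((m : ℕ).choose a : ℕ) : ℝ) * x ^ (a : ℕ) * (1 - x) ^ ((m : ℕ) - a)) := by
      intro a
      rw [lk_diag h0, if_pos rfl]
    rw [Finset.sum_congr rfl fun a _ => e1 a, Fin.sum_univ_eq_sum_range (fun a =>
      (a : ℝ) * ((((m : ℕ).choose a : ℕ) : ℝ) * x ^ a * (1 - x) ^ ((m : ℕ) - a))) (M + 1)]
    have e2 : Finset.range ((m : ℕ) + 1) ⊆ Finset.range (M + 1) := by
      intro a ha
      rw [Finset.mem_range] at ha ⊢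
      omega
    rw [← Finset.sum_subset e2]
    · rcases Nat.eq_zero_or_pos (m : ℕ) with h | h
      · rw [h]; simp
      · obtain ⟨q, hq⟩ : ∃ q, (m : ℕ) = q + 1 := ⟨(m : ℕ) - 1, by omega⟩
        rw [hq, Finset.sum_range_succ']
        simp only [Nat.cast_zero, zero_mul, add_zero]
        have h3 := add_pow x (1 - x) q
        rw [show x + (1 - x) = 1 by ring, one_pow] at h3
        have h6 : x * ((q + 1 : ℕ) : ℝ) = (x * ((q + 1 : ℕ) : ℝ)) * 1 := (mul_one _).symm
        refine Eq.trans ?_ (h6.trans (congrArg _ h3)).symm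
        rw [Finset.mul_sum]
        refine Finset.sum_congr rfl fun a _ => ?_
        have h4 := Nat.add_one_mul_choose_eq q a
        have h5 : ((q : ℝ) + 1) * ((q.choose a : ℕ) : ℝ) =
            (((q + 1).choose (a + 1) : ℕ) : ℝ) * ((a : ℝ) + 1) := by exact_mod_cast h4
        rw [show q + 1 - (a + 1) = q - a by omega]
        push_cast
        linear_combination (-(x ^ (a + 1) * (1 - x) ^ (q - a))) * h5
    · intro a _ ha
      rw [Finset.mem_range] at ha
      rw [Nat.choose_eq_zero_of_lt (by omega)]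
      simp
  · rw [if_neg h]
    refine Finset.sum_eq_zero fun a _ => ?_
    rw [lk_diag h0, if_neg (fun h' => h (Fin.ext h')), mul_zero]

/-- the step of the one-mode kernel -/
theorem lk_up {x : ℝ} (h0 : 0 ≤ x) (a b k k' : ℕ) :
    Real.sqrt ((a : ℝ) + 1) * Real.sqrt ((b : ℝ) + 1) * lk x (a + 1) (b + 1) k k' =
      if k + b = k' + a ∧ a ≤ k then
      ((k - a : ℕ) : ℝ) * (x * (Real.sqrt ((k.choose a : ℕ) : ℝ) * Real.sqrt ((k'.choose b : ℕ) : ℝ) *
      (Real.sqrt x ^ a * Real.sqrt x ^ b) * (1 - x) ^ (k - a - 1))) else 0 := by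
  unfold lk
  by_cases h : k + b = k' + a ∧ a ≤ k
  · rw [if_pos h]
    by_cases h' : a + 1 ≤ k
    · rw [if_pos ⟨by omega, h'⟩]
      have e1 : Real.sqrt ((a : ℝ) + 1) * Real.sqrt ((k.choose (a + 1) : ℕ) : ℝ) =
          Real.sqrt ((k - a : ℕ) : ℝ) * Real.sqrt ((k.choose a : ℕ) : ℝ) := by
        rw [← Real.sqrt_mul (by positivity), ← Real.sqrt_mul (by positivity)]
        congr 1
        have := Nat.choose_succ_right_eq k a
        have h3 : ((k.choose (a + 1) : ℕ) : ℝ) * ((a : ℝ) + 1) =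
            ((k.choose a : ℕ) : ℝ) * ((k - a : ℕ) : ℝ) := by exact_mod_cast this
        linarith
      have e2 : Real.sqrt ((b : ℝ) + 1) * Real.sqrt ((k'.choose (b + 1) : ℕ) : ℝ) =
          Real.sqrt ((k' - b : ℕ) : ℝ) * Real.sqrt ((k'.choose b : ℕ) : ℝ) := by
        rw [← Real.sqrt_mul (by positivity), ← Real.sqrt_mul (by positivity)]
        congr 1
        have := Nat.choose_succ_right_eq k' b
        have h3 : ((k'.choose (b + 1) : ℕ) : ℝ) * ((b : ℝ) + 1) =
            ((k'.choose b : ℕ) : ℝ) * ((k' - b : ℕ) : ℝ) := by exact_mod_cast this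
        linarith
      have e3 : k' - b = k - a := by omega
      rw [e3] at e2
      have e4 : Real.sqrt ((k - a : ℕ) : ℝ) * Real.sqrt ((k - a : ℕ) : ℝ) = ((k - a : ℕ) : ℝ) :=
        Real.mul_self_sqrt (Nat.cast_nonneg _)
      have e5 : Real.sqrt x * Real.sqrt x = x := Real.mul_self_sqrt h0
      rw [show k - (a + 1) = k - a - 1 by omega, pow_succ, pow_succ]
      calc _ = (Real.sqrt ((a : ℝ) + 1) * Real.sqrt ((k.choose (a + 1) : ℕ) : ℝ)) *
            (Real.sqrt ((b : ℝ) + 1) * Real.sqrt ((k'.choose (b + 1) : ℕ) : ℝ)) *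
            (Real.sqrt x ^ a * Real.sqrt x ^ b * (Real.sqrt x * Real.sqrt x)) *
            (1 - x) ^ (k - a - 1) := by ring
        _ = _ := by
          rw [e1, e2, e5]
          linear_combination (Real.sqrt ((k.choose a : ℕ) : ℝ) * Real.sqrt ((k'.choose b : ℕ) : ℝ) *
            (Real.sqrt x ^ a * Real.sqrt x ^ b * x) * (1 - x) ^ (k - a - 1)) * e4
    · rw [if_neg (fun h'' => h' h''.2), show k - a = 0 by omega]
      simp
  · rw [if_neg h, if_neg, mul_zero]
    omega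

theorem hasDerivAt_lk {x : ℝ} (h0 : 0 < x) (a b k k' : ℕ) :
    HasDerivAt (fun u => lk u a b k k') (-(1 / x) *
      (Real.sqrt ((a : ℝ) + 1) * Real.sqrt ((b : ℝ) + 1) * lk x (a + 1) (b + 1) k k' -
        ((a : ℝ) + b) / 2 * lk x a b k k')) x := by
  rw [lk_up h0.le]
  unfold lk
  by_cases h : k + b = k' + a ∧ a ≤ k
  · simp only [if_pos h]
    have h1 : HasDerivAt (fun u : ℝ => (1 - u) ^ (k - a))
        (((k - a : ℕ) : ℝ) * (1 - x) ^ (k - a - 1) * (-1)) x := by
      have h2 : HasDerivAt (fun u : ℝ => 1 - u) (-1) x := by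
        simpa using (hasDerivAt_id x).const_sub 1
      exact h2.pow (k - a)
    have h3 := (((d4_sqrt_pow h0 a).mul (d4_sqrt_pow h0 b)).const_mul
      (Real.sqrt ((k.choose a : ℕ) : ℝ) * Real.sqrt ((k'.choose b : ℕ) : ℝ))).mul h1
    refine h3.congr_deriv ?_
    have hx := h0.ne'
    simp only [Pi.mul_apply]
    field_simp
    ring
  · simp only [if_neg h]
    simp only [mul_zero, sub_zero]
    exact hasDerivAt_const x (0 : ℝ)

/-! ### all modes -/

theorem lkV_split (x : Fin n → ℝ) (a b k k' : Conf n) (j : Fin n) :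
    lkV x a b k k' = lk (x j) (a j) (b j) (k j) (k' j) *
      ∏ i ∈ Finset.univ.erase j, lk (x i) (a i) (b i) (k i) (k' i) := by
  unfold lkV
  exact (Finset.mul_prod_erase Finset.univ (fun i => lk (x i) (a i) (b i) (k i) (k' i))
    (Finset.mem_univ j)).symm

theorem lkV_up (x : Fin n → ℝ) (a b k k' : Conf n) (j : Fin n) :
    lkV x (up a j) (up b j) k k' = lk (x j) (a j + 1) (b j + 1) (k j) (k' j) *
      ∏ i ∈ Finset.univ.erase j, lk (x i) (a i) (b i) (k i) (k' i) := by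
  rw [lkV_split x _ _ _ _ j, up_same, up_same]
  congr 1
  refine Finset.prod_congr rfl fun i hi => ?_
  rw [up_ne _ (Finset.ne_of_mem_erase hi), up_ne _ (Finset.ne_of_mem_erase hi)]

theorem hasDerivAt_lkV {x : ℝ → Fin n → ℝ} {x' : Fin n → ℝ} {t : ℝ} (hx : ∀ j, 0 < x t j)
    (hd : ∀ j, HasDerivAt (fun u => x u j) (x' j) t) (a b k k' : Conf n) :
    HasDerivAt (fun u => lkV (x u) a b k k') (∑ j, -(x' j / x t j) *
      (Real.sqrt ((a j : ℝ) + 1) * Real.sqrt ((b j : ℝ) + 1) * lkV (x t) (up a j) (up b j) k k' -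
        ((a j : ℝ) + b j) / 2 * lkV (x t) a b k k')) t := by
  have h := HasDerivAt.fun_finsetProd (u := (Finset.univ : Finset (Fin n)))
    (f := fun j u => lk (x u j) (a j) (b j) (k j) (k' j)) (x := t)
    (f' := fun j => (-(1 / x t j) * (Real.sqrt ((a j : ℝ) + 1) * Real.sqrt ((b j : ℝ) + 1) *
      lk (x t j) (a j + 1) (b j + 1) (k j) (k' j) -
        ((a j : ℝ) + b j) / 2 * lk (x t j) (a j) (b j) (k j) (k' j))) * x' j)
    (fun j _ => HasDerivAt.comp (h₂ := fun x => lk x (a j) (b j) (k j) (k' j)) (h := fun u => x u j) t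
      (hasDerivAt_lk (hx j) _ _ _ _) (hd j))
  refine h.congr_deriv ?_
  refine Finset.sum_congr rfl fun j _ => ?_
  rw [lkV_up, lkV_split (x t) a b k k' j, smul_eq_mul]
  ring

/-- **the loss equation along a path of transmissivities** -/
theorem hasDerivAt_lossK {x : ℝ → Fin n → ℝ} {x' : Fin n → ℝ} {t : ℝ} (hx : ∀ j, 0 < x t j)
    (hd : ∀ j, HasDerivAt (fun u => x u j) (x' j) t) (ρ : Matrix (Cf n M) (Cf n M) ℂ)
    (a b : Conf n) :
    HasDerivAt (fun u => lossK (x u) ρ a b)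
      (∑ j, ((-(x' j / x t j) : ℝ) : ℂ) * genLj (lossK (x t) ρ) j a b) t := by
  have h : HasDerivAt (fun u => ∑ m, ∑ m', ((lkV (x u) a b (te m) (te m') : ℝ) : ℂ) * ρ m m')
      (∑ m, ∑ m', ((∑ j, -(x' j / x t j) *
      (Real.sqrt ((a j : ℝ) + 1) * Real.sqrt ((b j : ℝ) + 1) *
        lkV (x t) (up a j) (up b j) (te m) (te m') -
        ((a j : ℝ) + b j) / 2 * lkV (x t) a b (te m) (te m')) : ℝ) : ℂ) * ρ m m') t :=
    HasDerivAt.fun_sum fun m _ => HasDerivAt.fun_sum fun m' _ =>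
      ((hasDerivAt_lkV hx hd a b (te m) (te m')).ofReal_comp).mul_const (ρ m m')
  refine h.congr_deriv ?_
  have e : ∀ m m' : Cf n M, ((∑ j, -(x' j / x t j) *
      (Real.sqrt ((a j : ℝ) + 1) * Real.sqrt ((b j : ℝ) + 1) *
        lkV (x t) (up a j) (up b j) (te m) (te m') -
        ((a j : ℝ) + b j) / 2 * lkV (x t) a b (te m) (te m')) : ℝ) : ℂ) * ρ m m' =
      ∑ j, ((-(x' j / x t j) : ℝ) : ℂ) *
        (((Real.sqrt ((a j : ℝ) + 1) * Real.sqrt ((b j : ℝ) + 1) : ℝ) : ℂ) *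
          (((lkV (x t) (up a j) (up b j) (te m) (te m') : ℝ) : ℂ) * ρ m m') -
        ((((a j : ℝ) + b j) / 2 : ℝ) : ℂ) * (((lkV (x t) a b (te m) (te m') : ℝ) : ℂ) * ρ m m')) := by
    intro m m'
    rw [Complex.ofReal_sum, Finset.sum_mul]
    refine Finset.sum_congr rfl fun j _ => ?_
    push_cast
    ring
  rw [Finset.sum_congr rfl fun m _ => Finset.sum_congr rfl fun m' _ => e m m',
    Finset.sum_congr rfl fun m _ => Finset.sum_comm, Finset.sum_comm]
  refine Finset.sum_congr rfl fun j _ => ?_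
  unfold genLj lossK
  simp only [Finset.mul_sum, ← Finset.sum_sub_distrib]

/-! ### Kraus form, positivity -/

/-- Kraus operators -/
def RV (x : Fin n → ℝ) (l : Cf n M) : Matrix (Cf n M) (Cf n M) ℂ := fun k m =>
  ∏ i, d1b (x i) (m i) (k i) (l i)

theorem lossV_kraus {x : Fin n → ℝ} (hx : ∀ j, x j ≤ 1) (ρ : Matrix (Cf n M) (Cf n M) ℂ) :
    lossV x ρ = ∑ l, RV x l * ρ * (RV x l)ᴴ := by
  ext k k'
  rw [Matrix.sum_apply]
  have h1 : ∀ m m' : Cf n M, ((lkV x (te k) (te k') (te m) (te m') : ℝ) : ℂ) =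
      ∑ l : Cf n M, RV x l k m * star (RV x l k' m') := by
    intro m m'
    unfold lkV RV
    rw [Complex.ofReal_prod]
    have e1 : ∀ i, ((lk (x i) (te k i) (te k' i) (te m i) (te m' i) : ℝ) : ℂ) =
        ∑ c : Fin (M + 1), d1b (x i) (m i) (k i) c * star (d1b (x i) (m' i) (k' i) c) := by
      intro i
      exact lk_eq_d3b (hx i) (Nat.lt_succ_iff.1 (m i).2)
    rw [Finset.prod_congr rfl fun i _ => e1 i,
      ← d1_sum (fun i (c : Fin (M + 1)) =>
        d1b (x i) (m i) (k i) c * star (d1b (x i) (m' i) (k' i) c))]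
    refine Finset.sum_congr rfl fun l _ => ?_
    rw [Finset.prod_mul_distrib, star_prod]
  unfold lossV
  simp only [h1, Matrix.mul_apply, conjTranspose_apply, Finset.sum_mul]
  rw [Finset.sum_comm' (t' := Finset.univ) (s' := fun _ => Finset.univ) (by simp)]
  rw [Finset.sum_congr rfl fun m' _ => Finset.sum_comm]
  rw [Finset.sum_comm]
  refine Finset.sum_congr rfl fun l _ => Finset.sum_congr rfl fun m' _ =>
    Finset.sum_congr rfl fun m _ => ?_
  ring

theorem lossV_posSemidef {x : Fin n → ℝ} (hx : ∀ j, x j ≤ 1) {ρ : Matrix (Cf n M) (Cf n M) ℂ}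
    (hρ : ρ.PosSemidef) : (lossV x ρ).PosSemidef := by
  rw [lossV_kraus hx]
  exact Matrix.posSemidef_sum _ fun l _ => hρ.mul_mul_conjTranspose_same _

theorem RV_zero (x : Fin n → ℝ) : RV x (0 : Cf n M) =
    Matrix.diagonal fun k : Cf n M => ((∏ j, Real.sqrt (x j) ^ (k j : ℕ) : ℝ) : ℂ) := by
  ext k m
  rw [Matrix.diagonal_apply]
  unfold RV d1b
  by_cases h : k = m
  · subst h
    rw [if_pos rfl, Complex.ofReal_prod]
    refine Finset.prod_congr rfl fun j _ => ?_
    simp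
  · rw [if_neg h]
    obtain ⟨j, hj⟩ := Function.ne_iff.1 h
    refine Finset.prod_eq_zero (Finset.mem_univ j) ?_
    rw [if_neg]
    intro h'
    apply hj
    apply Fin.ext
    simpa using h'.symm

theorem lossV_posDef {x : Fin n → ℝ} (h0 : ∀ j, 0 < x j) (hx : ∀ j, x j ≤ 1)
    {ρ : Matrix (Cf n M) (Cf n M) ℂ} (hρ : ρ.PosDef) : (lossV x ρ).PosDef := by
  rw [lossV_kraus hx, ← Finset.add_sum_erase _ _ (Finset.mem_univ (0 : Cf n M))]
  refine Matrix.PosDef.add_posSemidef ?_ (Matrix.posSemidef_sum _ fun l _ =>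
    hρ.posSemidef.mul_mul_conjTranspose_same _)
  refine Matrix.PosDef.mul_mul_conjTranspose_same hρ ?_
  rw [RV_zero]
  intro v w hvw
  funext k
  have h := congrFun hvw k
  simp only [Matrix.vecMul_diagonal] at h
  refine mul_right_cancel₀ ?_ h
  rw [Complex.ofReal_ne_zero]
  exact Finset.prod_ne_zero_iff.2 fun j _ => pow_ne_zero _ (Real.sqrt_ne_zero'.2 (h0 j))

theorem lk_symm (x : ℝ) (a b k k' : ℕ) : lk x b a k' k = lk x a b k k' := by
  unfold lk
  by_cases h : k + b = k' + a ∧ a ≤ k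
  · rw [if_pos h, if_pos (by omega), show k' - b = k - a by omega]
    ring
  · rw [if_neg h, if_neg (by omega)]

theorem lkV_symm (x : Fin n → ℝ) (a b k k' : Conf n) : lkV x b a k' k = lkV x a b k k' :=
  Finset.prod_congr rfl fun _ _ => lk_symm _ _ _ _ _

theorem lossV_isHermitian (x : Fin n → ℝ) {ρ : Matrix (Cf n M) (Cf n M) ℂ}
    (hρ : ρ.IsHermitian) : (lossV x ρ).IsHermitian := by
  ext a b
  rw [conjTranspose_apply]
  unfold lossV
  rw [star_sum, Finset.sum_comm]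
  refine Finset.sum_congr rfl fun m _ => ?_
  rw [star_sum]
  refine Finset.sum_congr rfl fun m' _ => ?_
  rw [star_mul', Complex.star_def, Complex.conj_ofReal, lkV_symm, ← Complex.star_def, hρ.apply]

/-! ### trace and energies -/

theorem sum_lkV_diag {x : Fin n → ℝ} (h0 : ∀ j, 0 ≤ x j) (m m' : Cf n M) :
    ∑ a : Cf n M, lkV x (te a) (te a) (te m) (te m') = if m = m' then 1 else 0 := by
  have h1 : ∑ a : Cf n M, ∏ i, lk (x i) (a i : ℕ) (a i : ℕ) (m i : ℕ) (m' i : ℕ) =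
      ∏ i, ∑ c : Fin (M + 1), lk (x i) (c : ℕ) (c : ℕ) (m i : ℕ) (m' i : ℕ) := by
    rw [Finset.prod_univ_sum, Fintype.piFinset_univ]
  refine h1.trans ?_
  rw [Finset.prod_congr rfl fun i _ => sum_lk (h0 i) (m i) (m' i), Finset.prod_ite_zero,
    Finset.prod_const_one]
  by_cases h : m = m'
  · subst h
    simp
  · rw [if_neg h, if_neg]
    intro h'
    exact h (funext fun i => h' i (Finset.mem_univ i))

theorem sum_mul_lkV_diag {x : Fin n → ℝ} (h0 : ∀ j, 0 ≤ x j) (m m' : Cf n M) (j : Fin n) :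
    ∑ a : Cf n M, ((a j : ℕ) : ℝ) * lkV x (te a) (te a) (te m) (te m') =
      if m = m' then x j * ((m j : ℕ) : ℝ) else 0 := by
  have h1 : ∑ a : Cf n M, ∏ i, ((if i = j then ((a i : ℕ) : ℝ) else 1) *
      lk (x i) (a i : ℕ) (a i : ℕ) (m i : ℕ) (m' i : ℕ)) =
      ∏ i, ∑ c : Fin (M + 1), (if i = j then ((c : ℕ) : ℝ) else 1) *
        lk (x i) (c : ℕ) (c : ℕ) (m i : ℕ) (m' i : ℕ) := by
    rw [Finset.prod_univ_sum, Fintype.piFinset_univ]
  have h2 : ∀ a : Cf n M, ((a j : ℕ) : ℝ) * lkV x (te a) (te a) (te m) (te m') =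
      ∏ i, ((if i = j then ((a i : ℕ) : ℝ) else 1) *
      lk (x i) (a i : ℕ) (a i : ℕ) (m i : ℕ) (m' i : ℕ)) := by
    intro a
    rw [Finset.prod_mul_distrib, Finset.prod_ite_eq' Finset.univ j, if_pos (Finset.mem_univ j)]
    rfl
  rw [Finset.sum_congr rfl fun a _ => h2 a, h1]
  have h3 : ∀ i, ∑ c : Fin (M + 1), (if i = j then ((c : ℕ) : ℝ) else 1) *
        lk (x i) (c : ℕ) (c : ℕ) (m i : ℕ) (m' i : ℕ) =
      (if i = j then x i * ((m i : ℕ) : ℝ) else 1) * (if m i = m' i then 1 else 0) := by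
    intro i
    by_cases hi : i = j
    · simp only [hi, if_true]
      rw [sum_mul_lk (h0 j)]
      split_ifs <;> simp
    · simp only [hi, if_false, one_mul]
      exact sum_lk (h0 i) (m i) (m' i)
  rw [Finset.prod_congr rfl fun i _ => h3 i, Finset.prod_mul_distrib,
    Finset.prod_ite_eq' Finset.univ j, if_pos (Finset.mem_univ j), Finset.prod_ite_zero,
    Finset.prod_const_one]
  by_cases h : m = m'
  · subst h
    simp
  · rw [if_neg h, if_neg, mul_zero]
    intro h'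
    exact h (funext fun i => h' i (Finset.mem_univ i))

theorem lossV_trace {x : Fin n → ℝ} (h0 : ∀ j, 0 ≤ x j) (ρ : Matrix (Cf n M) (Cf n M) ℂ) :
    (lossV x ρ).trace = ρ.trace := by
  change ∑ a, lossV x ρ a a = ∑ m, ρ m m
  unfold lossV
  rw [Finset.sum_comm]
  refine Finset.sum_congr rfl fun m _ => ?_
  rw [Finset.sum_comm]
  have h1 : ∀ m' : Cf n M, ∑ a : Cf n M,
      ((lkV x (te a) (te a) (te m) (te m') : ℝ) : ℂ) * ρ m m' =
      if m = m' then ρ m m' else 0 := by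
    intro m'
    rw [← Finset.sum_mul, ← Complex.ofReal_sum, sum_lkV_diag h0]
    split_ifs <;> simp
  rw [Finset.sum_congr rfl fun m' _ => h1 m', Finset.sum_ite_eq, if_pos (Finset.mem_univ m)]

theorem en0j_lossV {x : Fin n → ℝ} (h0 : ∀ j, 0 ≤ x j) (ρ : Matrix (Cf n M) (Cf n M) ℂ)
    (j : Fin n) : P369W.en0j (lossV x ρ) j = x j * P369W.en0j ρ j := by
  have key : ∑ a : Cf n M, (((a j : ℕ) : ℝ) : ℂ) * lossV x ρ a a =
      (x j : ℂ) * ∑ m : Cf n M, (((m j : ℕ) : ℝ) : ℂ) * ρ m m := by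
    unfold lossV
    simp only [Finset.mul_sum]
    rw [Finset.sum_comm]
    refine Finset.sum_congr rfl fun m _ => ?_
    rw [Finset.sum_comm]
    have h1 : ∀ m' : Cf n M, ∑ a : Cf n M, (((a j : ℕ) : ℝ) : ℂ) *
        (((lkV x (te a) (te a) (te m) (te m') : ℝ) : ℂ) * ρ m m') =
        if m = m' then (x j : ℂ) * ((((m j : ℕ) : ℝ) : ℂ) * ρ m m') else 0 := by
      intro m'
      have e := sum_mul_lkV_diag h0 m m' j
      have e2 : ∑ a : Cf n M, (((a j : ℕ) : ℝ) : ℂ) *
        (((lkV x (te a) (te a) (te m) (te m') : ℝ) : ℂ) * ρ m m') =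
        ((∑ a : Cf n M, ((a j : ℕ) : ℝ) * lkV x (te a) (te a) (te m) (te m') : ℝ) : ℂ) *
          ρ m m' := by
        rw [Complex.ofReal_sum, Finset.sum_mul]
        refine Finset.sum_congr rfl fun a _ => ?_
        push_cast
        ring
      rw [e2, e]
      by_cases h : m = m'
      · subst h
        rw [if_pos rfl, if_pos rfl]
        push_cast
        ring
      · rw [if_neg h, if_neg h, Complex.ofReal_zero, zero_mul]
    rw [Finset.sum_congr rfl fun m' _ => h1 m', Finset.sum_ite_eq, if_pos (Finset.mem_univ m)]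
  have h1 : ∀ τ : Matrix (Cf n M) (Cf n M) ℂ, P369W.en0j τ j =
      (∑ m : Cf n M, (((m j : ℕ) : ℝ) : ℂ) * τ m m).re := by
    intro τ
    unfold P369W.en0j
    rw [Complex.re_sum]
    exact Finset.sum_congr rfl fun m _ => (Complex.re_ofReal_mul _ _).symm
  rw [h1, h1, key, Complex.re_ofReal_mul]

/-- with all transmissivities equal, this is the loss channel `P369V.loss` -/
theorem lossV_const {x : ℝ} (h1 : x ≤ 1) (ρ : Matrix (Cf n M) (Cf n M) ℂ) :
    lossV (fun _ => x) ρ = P369V.loss n M x ρ := by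
  ext k k'
  rw [P369V.d3_loss]
  refine Finset.sum_congr rfl fun m _ => Finset.sum_congr rfl fun m' _ => ?_
  congr 1
  unfold lkV
  rw [Complex.ofReal_prod]
  exact Finset.prod_congr rfl fun i _ => lk_eq_d3b h1 (Nat.lt_succ_iff.1 (m i).2)

end

end Vale.Agent.P369F
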