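import Vale.Agent.P369.H809.Flow
import Vale.Agent.P369.H809.Gen

/-!
P369F (helper809): the flow of entropy along explicit paths of states: gain paths, the thermal path,
loss paths (run backwards).
-/

namespace Vale.Agent.P369F

open Matrix MeasureTheory Set Filter
open Vale.Agent.P369 (Conf up down)
open Vale.Agent.P369V (ent Cf)
open Vale.Agent.P369A
open Vale.Agent.P369W (CkV DkV en0j reg_CkV posDef_CkV)
open scoped ComplexOrder Topology

noncomputable section

variable {n M : ℕ}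

/-! ### backward loss paths -/

/-- a path of faithful states whose derivative is a nonpositive combination of loss generators -/
structure BPath (s : ℝ → Ker n) (β : Fin n → ℝ → ℝ) (a b E : ℝ) : Prop where
  reg : ∀ t ∈ Icc a b, ∃ E', Reg (s t) E' ∧ E' ≤ E
  herm : ∀ t ∈ Icc a b, ∀ X, ∀ᶠ t' in 𝓝 t, (cut X (s t')).IsHermitian
  der : ∀ t ∈ Icc a b, ∀ x y, HasDerivAt (fun t' => s t' x y)
    (-∑ j, ((β j t : ℝ) : ℂ) * genLj (s t) j x y) t
  cβ : ∀ j, ContinuousOn (β j) (Icc a b)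
  β0 : ∀ j, ∀ t ∈ Icc a b, 0 ≤ β j t

namespace BPath

variable {s : ℝ → Ker n} {β : Fin n → ℝ → ℝ} {a b E : ℝ}

theorem toG (h : BPath s β a b E) :
    GPath (fun t => s (a + b - t)) (fun _ _ => 0) (fun j t => β j (a + b - t)) a b E := by
  have hm : ∀ t ∈ Icc a b, a + b - t ∈ Icc a b := fun t ht =>
    ⟨by linarith [ht.2], by linarith [ht.1]⟩
  refine ⟨fun t ht => h.reg _ (hm t ht), fun t ht X => ?_, fun t ht x y => ?_, fun j => ?_,
    fun j => ?_, fun j t ht => le_rfl, fun j t ht => h.β0 j _ (hm t ht)⟩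
  · have h1 : Tendsto (fun t' : ℝ => a + b - t') (𝓝 t) (𝓝 (a + b - t)) :=
      (continuous_const.sub continuous_id).tendsto t
    exact h1.eventually (h.herm _ (hm t ht) X)
  · have h1 : HasDerivAt (fun t' : ℝ => a + b - t') (-1) t := by
      simpa using (hasDerivAt_id t).const_sub (a + b)
    have h2 := (h.der _ (hm t ht) x y).scomp t h1
    refine h2.congr_deriv ?_
    simp only [Complex.ofReal_zero, zero_mul, zero_add, neg_smul, one_smul, neg_neg]
  · exact continuousOn_const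
  · exact (h.cβ j).comp (by fun_prop) hm

/-- the truncated rate of entropy along a backward loss path -/
def brateX (s : ℝ → Ker n) (β : Fin n → ℝ → ℝ) (X : ℕ) (t : ℝ) : ℝ :=
  ∑ j, β j t * (1 - ∫ m in (0 : ℝ)..1, m * FXj m (s t) X j)

theorem rate_eq (X : ℕ) (t : ℝ) :
    GPath.rateX (fun t => s (a + b - t)) (fun _ _ => 0) (fun j t => β j (a + b - t)) X t =
      -brateX s β X (a + b - t) := by
  unfold GPath.rateX brateX
  rw [← Finset.sum_neg_distrib]
  refine Finset.sum_congr rfl fun j _ => ?_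
  ring

theorem int_eq (X : ℕ) :
    ∫ t in a..b, GPath.rateX (fun t => s (a + b - t)) (fun _ _ => 0)
      (fun j t => β j (a + b - t)) X t = -∫ t in a..b, brateX s β X t := by
  rw [intervalIntegral.integral_congr fun t _ => rate_eq (s := s) (β := β) (a := a) (b := b) X t,
    intervalIntegral.integral_neg, intervalIntegral.integral_comp_sub_left]
  congr 2
  · ring
  · ring

theorem cont_brateX (h : BPath s β a b E) (X : ℕ) :
    ContinuousOn (brateX s β X) (Icc a b) := by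
  unfold brateX
  have hp : ∀ t ∈ Icc a b, ∀ X, (cut X (s t)).PosDef := fun t ht => by
    obtain ⟨E', h1, -⟩ := h.reg t ht
    exact h1.pos
  have hc : ∀ x y, ContinuousOn (fun t => s t x y) (Icc a b) := fun x y t ht =>
    (h.der t ht x y).continuousAt.continuousWithinAt
  exact continuousOn_finsetSum _ fun j _ =>
    ((h.cβ j).mul (continuousOn_const.sub (continuousOn_int_w hp hc
        (w := fun m => m) (by fun_prop) X j)))

/-- the increment of the entropy is at most the truncated rates -/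
theorem up (h : BPath s β a b E) (hab : a ≤ b) (X : ℕ) :
    Sl (s b) - Sl (s a) ≤ ∫ t in a..b, brateX s β X t := by
  have h1 := h.toG.flow_low hab X
  rw [int_eq] at h1
  simp only [add_sub_cancel_left, add_sub_cancel_right] at h1
  linarith

/-- the truncated rates are at most the increment of the entropy, eventually -/
theorem low (h : BPath s β a b E) (hab : a ≤ b) {ε : ℝ} (hε : 0 < ε) :
    ∀ᶠ X in atTop, ∫ t in a..b, brateX s β X t ≤ Sl (s b) - Sl (s a) + ε := by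
  filter_upwards [h.toG.flow_up hab hε] with X hX
  rw [int_eq] at hX
  simp only [add_sub_cancel_left, add_sub_cancel_right] at hX
  linarith

end BPath

/-! ### the path of states `CkV (lossV (x t) ρ) (k t)` -/

variable {ρ : Matrix (Cf n M) (Cf n M) ℂ}

theorem reg_CL (hρ : ρ.PosDef) (ht : ρ.trace = 1) {k x : Fin n → ℝ} (hk : ∀ j, 1 < k j)
    (h0 : ∀ j, 0 < x j) (h1 : ∀ j, x j ≤ 1) :
    Reg (CkV (lossV x ρ) k) (∑ j, (k j * (x j * en0j ρ j) + (k j - 1))) := by
  have h := reg_CkV (lossV_posDef h0 h1 hρ) ((lossV_trace (fun j => (h0 j).le) ρ).trans ht) hk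
  simpa only [en0j_lossV fun j => (h0 j).le] using h

/-- gain paths -/
theorem gpath_gain (hρ : ρ.PosDef) (ht : ρ.trace = 1) {k k' : ℝ → Fin n → ℝ} {a b E : ℝ}
    (hk : ∀ t ∈ Icc a b, ∀ j, 1 < k t j)
    (dk : ∀ t ∈ Icc a b, ∀ j, HasDerivAt (fun u => k u j) (k' t j) t)
    (ck : ∀ j, ContinuousOn (fun t => k' t j / k t j) (Icc a b))
    (k0 : ∀ t ∈ Icc a b, ∀ j, 0 ≤ k' t j)
    (hE : ∀ t ∈ Icc a b, ∑ j, (k t j * en0j ρ j + (k t j - 1)) ≤ E) :
    GPath (fun t => CkV ρ (k t)) (fun j t => k' t j / k t j) (fun _ _ => 0) a b E := by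
  refine ⟨fun t h => ⟨_, reg_CkV hρ ht (hk t h), hE t h⟩, fun t _ X =>
    Eventually.of_forall fun t' => herm_CkV hρ.isHermitian _ X, fun t h x y => ?_, ck,
    fun j => continuousOn_const, fun j t h => div_nonneg (k0 t h j) (by linarith [hk t h j]),
    fun j t h => le_rfl⟩
  refine (P369V8.hasDerivAt_CkV (hk t h) (dk t h) x y).congr_deriv ?_
  refine Finset.sum_congr rfl fun j _ => ?_
  rw [Complex.ofReal_zero, zero_mul, add_zero]

/-- general paths -/
theorem gpath_CL (hρ : ρ.PosDef) (ht : ρ.trace = 1) {k k' x x' : ℝ → Fin n → ℝ} {a b E : ℝ}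
    {α β : Fin n → ℝ → ℝ}
    (hk : ∀ t ∈ Icc a b, ∀ j, 1 < k t j)
    (dk : ∀ t ∈ Icc a b, ∀ j, HasDerivAt (fun u => k u j) (k' t j) t)
    (hx0 : ∀ t ∈ Icc a b, ∀ j, 0 < x t j) (hx1 : ∀ t ∈ Icc a b, ∀ j, x t j ≤ 1)
    (dx : ∀ t ∈ Icc a b, ∀ j, HasDerivAt (fun u => x u j) (x' t j) t)
    (hα : ∀ j, ∀ t ∈ Icc a b, k' t j / k t j - x' t j / x t j * (k t j - 1) = α j t)
    (hβ : ∀ j, ∀ t ∈ Icc a b, -(x' t j / x t j) * k t j = β j t)
    (cα : ∀ j, ContinuousOn (α j) (Icc a b)) (cβ : ∀ j, ContinuousOn (β j) (Icc a b))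
    (α0 : ∀ j, ∀ t ∈ Icc a b, 0 ≤ α j t) (β0 : ∀ j, ∀ t ∈ Icc a b, 0 ≤ β j t)
    (hE : ∀ t ∈ Icc a b, ∑ j, (k t j * (x t j * en0j ρ j) + (k t j - 1)) ≤ E) :
    GPath (fun t => CkV (lossV (x t) ρ) (k t)) α β a b E := by
  refine ⟨fun t h => ⟨_, reg_CL hρ ht (hk t h) (hx0 t h) (hx1 t h), hE t h⟩, fun t _ X =>
    Eventually.of_forall fun t' => herm_CkV (lossV_isHermitian _ hρ.isHermitian) _ X,
    fun t h p q => ?_, cα, cβ, α0, β0⟩
  refine (hasDerivAt_CL (hk t h) (dk t h) (hx0 t h) (dx t h) ρ p q).congr_deriv ?_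
  refine Finset.sum_congr rfl fun j _ => ?_
  rw [hα j t h, hβ j t h]

/-! ### the thermal path -/

/-- gains of the thermal path, `η = e^{-t}` -/
def kTh (s : Fin n → ℝ) (t : ℝ) : Fin n → ℝ := fun j => P369T.kap (Real.exp (-t)) (s j)

/-- transmissivities of the thermal path -/
def xTh (s : Fin n → ℝ) (t : ℝ) : Fin n → ℝ := fun j =>
  Real.exp (-t) / P369T.kap (Real.exp (-t)) (s j)

theorem kTh_eq (s : Fin n → ℝ) (t : ℝ) (j : Fin n) : kTh s t j = 1 + (1 - Real.exp (-t)) * s j :=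
  rfl

theorem one_lt_kTh {s : Fin n → ℝ} (hs : ∀ j, 0 < s j) {t : ℝ} (ht : 0 < t) (j : Fin n) :
    1 < kTh s t j := by
  rw [kTh_eq]
  have h1 : Real.exp (-t) < 1 := Real.exp_lt_one_iff.2 (by linarith)
  have := mul_pos (sub_pos.2 h1) (hs j)
  linarith

theorem xTh_pos {s : Fin n → ℝ} (hs : ∀ j, 0 < s j) {t : ℝ} (ht : 0 < t) (j : Fin n) :
    0 < xTh s t j :=
  div_pos (Real.exp_pos _) (zero_lt_one.trans (one_lt_kTh hs ht j))

theorem xTh_le_one {s : Fin n → ℝ} (hs : ∀ j, 0 < s j) {t : ℝ} (ht : 0 < t) (j : Fin n) :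
    xTh s t j ≤ 1 := by
  have h1 := one_lt_kTh hs ht j
  have h2 : Real.exp (-t) < 1 := Real.exp_lt_one_iff.2 (by linarith)
  exact (div_le_one (zero_lt_one.trans h1)).2 (by linarith)

theorem hasDerivAt_kTh (s : Fin n → ℝ) (t : ℝ) (j : Fin n) :
    HasDerivAt (fun u => kTh s u j) (Real.exp (-t) * s j) t := by
  have h1 : HasDerivAt (fun u : ℝ => Real.exp (-u)) (Real.exp (-t) * (-1)) t :=
    (Real.hasDerivAt_exp (-t)).comp t (hasDerivAt_neg t)
  have h2 := ((h1.const_sub 1).mul_const (s j)).const_add 1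
  refine h2.congr_deriv ?_
  ring

theorem hasDerivAt_xTh {s : Fin n → ℝ} {t : ℝ} (j : Fin n) (hk : kTh s t j ≠ 0) :
    HasDerivAt (fun u => xTh s u j)
      (-(xTh s t j * (1 + Real.exp (-t) * s j / kTh s t j))) t := by
  have h1 : HasDerivAt (fun u : ℝ => Real.exp (-u)) (Real.exp (-t) * (-1)) t :=
    (Real.hasDerivAt_exp (-t)).comp t (hasDerivAt_neg t)
  have h2 := h1.div (hasDerivAt_kTh s t j) hk
  refine h2.congr_deriv ?_
  have e : xTh s t j = Real.exp (-t) / kTh s t j := rfl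
  rw [e]
  field_simp
  ring

/-- the thermal path is a path of states with gain rates `s j` and loss rates `s j + 1` -/
theorem gpath_thermal (hρ : ρ.PosDef) (ht : ρ.trace = 1) {s : Fin n → ℝ} (hs : ∀ j, 0 < s j)
    {a b : ℝ} (ha : 0 < a) :
    GPath (fun t => CkV (lossV (xTh s t) ρ) (kTh s t)) (fun j _ => s j) (fun j _ => s j + 1) a b
      (∑ j, (en0j ρ j + s j)) := by
  have hpos : ∀ t ∈ Icc a b, 0 < t := fun t h => ha.trans_le h.1
  have hk0 : ∀ t ∈ Icc a b, ∀ j, kTh s t j ≠ 0 := fun t h j =>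
    (zero_lt_one.trans (one_lt_kTh hs (hpos t h) j)).ne'
  refine gpath_CL hρ ht (k' := fun t j => Real.exp (-t) * s j)
    (x' := fun t j => -(xTh s t j * (1 + Real.exp (-t) * s j / kTh s t j)))
    (fun t h => one_lt_kTh hs (hpos t h)) (fun t _ j => hasDerivAt_kTh s t j)
    (fun t h => xTh_pos hs (hpos t h)) (fun t h => xTh_le_one hs (hpos t h))
    (fun t h j => hasDerivAt_xTh j (hk0 t h j)) (fun j t h => ?_) (fun j t h => ?_)
    (fun _ => continuousOn_const) (fun _ => continuousOn_const) (fun j _ _ => (hs j).le)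
    (fun j _ _ => by linarith [hs j]) (fun t h => ?_)
  · have h1 := hk0 t h j
    have h2 := (xTh_pos hs (hpos t h) j).ne'
    have e : kTh s t j = 1 + (1 - Real.exp (-t)) * s j := rfl
    have e3 : -(xTh s t j * (1 + Real.exp (-t) * s j / kTh s t j)) / xTh s t j =
        -(1 + Real.exp (-t) * s j / kTh s t j) := by
      field_simp
    rw [e3]
    field_simp
    rw [e]
    ring
  · have h1 := hk0 t h j
    have h2 := (xTh_pos hs (hpos t h) j).ne'
    have e : kTh s t j = 1 + (1 - Real.exp (-t)) * s j := rfl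
    have e3 : -(xTh s t j * (1 + Real.exp (-t) * s j / kTh s t j)) / xTh s t j =
        -(1 + Real.exp (-t) * s j / kTh s t j) := by
      field_simp
    rw [e3]
    field_simp
    rw [e]
    ring
  · refine Finset.sum_le_sum fun j _ => ?_
    have h1 := hk0 t h j
    have e1 : kTh s t j * (xTh s t j * en0j ρ j) = Real.exp (-t) * en0j ρ j := by
      have e : xTh s t j = Real.exp (-t) / kTh s t j := rfl
      rw [e]
      field_simp
    have e2 : kTh s t j - 1 = (1 - Real.exp (-t)) * s j := by rw [kTh_eq]; ring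
    rw [e1, e2]
    have h2 : Real.exp (-t) ≤ 1 := Real.exp_le_one_iff.2 (by linarith [hpos t h])
    have h3 := Real.exp_pos (-t)
    have h4 : 0 ≤ en0j ρ j := by
      unfold P369W.en0j
      refine Finset.sum_nonneg fun x _ => mul_nonneg (Nat.cast_nonneg _) ?_
      exact (Complex.le_def.1 (hρ.posSemidef.diag_nonneg (i := x))).1
    nlinarith [hs j]

/-! ### the loss path -/

/-- gain of the state `CkV (lossV x ρ) κ` after a further loss `θ` -/
def kLo (κ : Fin n → ℝ) (θ : ℝ) : Fin n → ℝ := fun j => 1 + θ * (κ j - 1)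

/-- transmissivity of the state `CkV (lossV x ρ) κ` after a further loss `θ` -/
def xLo (κ x : Fin n → ℝ) (θ : ℝ) : Fin n → ℝ := fun j => x j * (θ * κ j / kLo κ θ j)

/-- the state `CkV (lossV x ρ) κ` after a further loss `θ` -/
def LoP (κ x : Fin n → ℝ) (ρ : Matrix (Cf n M) (Cf n M) ℂ) (θ : ℝ) : Ker n :=
  CkV (lossV (xLo κ x θ) ρ) (kLo κ θ)

theorem kLo_one (κ : Fin n → ℝ) : kLo κ 1 = κ := by
  funext j
  unfold kLo
  ring

theorem xLo_one {κ x : Fin n → ℝ} (hκ : ∀ j, 1 < κ j) : xLo κ x 1 = x := by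
  funext j
  unfold xLo
  rw [kLo_one, one_mul, div_self (by linarith [hκ j]), mul_one]

theorem LoP_one {κ x : Fin n → ℝ} (hκ : ∀ j, 1 < κ j) (ρ : Matrix (Cf n M) (Cf n M) ℂ) :
    LoP κ x ρ 1 = CkV (lossV x ρ) κ := by
  unfold LoP
  rw [xLo_one hκ, kLo_one]

theorem one_lt_kLo {κ : Fin n → ℝ} (hκ : ∀ j, 1 < κ j) {θ : ℝ} (h : 0 < θ) (j : Fin n) :
    1 < kLo κ θ j := by
  have := mul_pos h (sub_pos.2 (hκ j))
  unfold kLo
  linarith

theorem xLo_pos {κ x : Fin n → ℝ} (hκ : ∀ j, 1 < κ j) (hx : ∀ j, 0 < x j) {θ : ℝ} (h : 0 < θ)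
    (j : Fin n) : 0 < xLo κ x θ j :=
  mul_pos (hx j) (div_pos (mul_pos h (by linarith [hκ j]))
    (zero_lt_one.trans (one_lt_kLo hκ h j)))

theorem xLo_le {κ x : Fin n → ℝ} (hκ : ∀ j, 1 < κ j) (hx : ∀ j, 0 < x j) {θ : ℝ} (h : 0 < θ)
    (h1 : θ ≤ 1) (j : Fin n) : xLo κ x θ j ≤ x j := by
  have h2 := one_lt_kLo hκ h j
  have h3 : θ * κ j / kLo κ θ j ≤ 1 := by
    rw [div_le_one (by linarith)]
    unfold kLo
    nlinarith [hκ j]
  have h4 := hx j
  unfold xLo
  nlinarith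

theorem hasDerivAt_kLo (κ : Fin n → ℝ) (θ : ℝ) (j : Fin n) :
    HasDerivAt (fun u => kLo κ u j) (κ j - 1) θ := by
  unfold kLo
  simpa using ((hasDerivAt_id θ).mul_const (κ j - 1)).const_add 1

theorem hasDerivAt_xLo {κ x : Fin n → ℝ} {θ : ℝ} (j : Fin n) (h0 : θ ≠ 0) (hk : kLo κ θ j ≠ 0) :
    HasDerivAt (fun u => xLo κ x u j) (xLo κ x θ j * (1 / (θ * kLo κ θ j))) θ := by
  unfold xLo
  have h1 : HasDerivAt (fun u : ℝ => u * κ j) (κ j) θ := by
    simpa using (hasDerivAt_id θ).mul_const (κ j)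
  have h2 := (h1.div (hasDerivAt_kLo κ θ j) hk).const_mul (x j)
  refine h2.congr_deriv ?_
  have e : kLo κ θ j = 1 + θ * (κ j - 1) := rfl
  field_simp
  rw [e]
  ring

/-- the loss path of the state `CkV (lossV x ρ) κ`, `θ ∈ [a, b] ⊆ (0, 1]` -/
theorem bpath_loss (hρ : ρ.PosDef) (ht : ρ.trace = 1) {κ x : Fin n → ℝ} (hκ : ∀ j, 1 < κ j)
    (hx0 : ∀ j, 0 < x j) (hx1 : ∀ j, x j ≤ 1) {a b : ℝ} (ha : 0 < a) (hb : b ≤ 1) :
    BPath (LoP κ x ρ) (fun _ θ => 1 / θ) a b (∑ j, (κ j * (x j * en0j ρ j) + (κ j - 1))) := by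
  have hpos : ∀ t ∈ Icc a b, 0 < t := fun t h => ha.trans_le h.1
  have hle : ∀ t ∈ Icc a b, t ≤ 1 := fun t h => h.2.trans hb
  refine ⟨fun θ h => ⟨_, reg_CL hρ ht (one_lt_kLo hκ (hpos θ h)) (xLo_pos hκ hx0 (hpos θ h))
    (fun j => (xLo_le hκ hx0 (hpos θ h) (hle θ h) j).trans (hx1 j)), ?_⟩, fun θ _ X =>
    Eventually.of_forall fun θ' => herm_CkV (lossV_isHermitian _ hρ.isHermitian) _ X,
    fun θ h p q => ?_, fun j => ?_, fun j θ h => ?_⟩
  · refine Finset.sum_le_sum fun j _ => ?_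
    have h1 := one_lt_kLo hκ (hpos θ h) j
    have h4 : 0 ≤ en0j ρ j := by
      unfold P369W.en0j
      refine Finset.sum_nonneg fun x _ => mul_nonneg (Nat.cast_nonneg _) ?_
      exact (Complex.le_def.1 (hρ.posSemidef.diag_nonneg (i := x))).1
    have e1 : kLo κ θ j * (xLo κ x θ j * en0j ρ j) = θ * (κ j * (x j * en0j ρ j)) := by
      unfold xLo
      have : kLo κ θ j ≠ 0 := by linarith
      field_simp
    have e2 : kLo κ θ j - 1 = θ * (κ j - 1) := by unfold kLo; ring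
    rw [e1, e2]
    have h5 : 0 ≤ κ j * (x j * en0j ρ j) :=
      mul_nonneg (by linarith [hκ j]) (mul_nonneg (hx0 j).le h4)
    have h6 : 0 ≤ κ j - 1 := by linarith [hκ j]
    have h7 := hle θ h
    nlinarith
  · have hk1 : ∀ j, kLo κ θ j ≠ 0 := fun j => by linarith [one_lt_kLo hκ (hpos θ h) j]
    have h0 := (hpos θ h).ne'
    refine (hasDerivAt_CL (one_lt_kLo hκ (hpos θ h)) (hasDerivAt_kLo κ θ)
      (xLo_pos hκ hx0 (hpos θ h)) (fun j => hasDerivAt_xLo j h0 (hk1 j)) ρ p q).congr_deriv ?_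
    rw [← Finset.sum_neg_distrib]
    refine Finset.sum_congr rfl fun j _ => ?_
    have hx2 := (xLo_pos hκ hx0 (hpos θ h) j).ne'
    have hk2 := hk1 j
    have e0 : xLo κ x θ j * (1 / (θ * kLo κ θ j)) / xLo κ x θ j = 1 / (θ * kLo κ θ j) := by
      field_simp
    have e1 : (κ j - 1) / kLo κ θ j - xLo κ x θ j * (1 / (θ * kLo κ θ j)) / xLo κ x θ j *
        (kLo κ θ j - 1) = 0 := by
      rw [e0]
      have e2 : kLo κ θ j - 1 = θ * (κ j - 1) := by unfold kLo; ring
      rw [e2]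
      field_simp
      ring
    have e3 : -(xLo κ x θ j * (1 / (θ * kLo κ θ j)) / xLo κ x θ j) * kLo κ θ j = -(1 / θ) := by
      rw [e0]
      field_simp
    rw [e1, e3]
    unfold LoP
    push_cast
    ring
  · refine ContinuousOn.div continuousOn_const continuousOn_id fun θ h => (hpos θ h).ne'
  · have := hpos θ h
    positivity

end

end Vale.Agent.P369F
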